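import Crest.Agent.N334.AC.L.Basic

/-! # S0520 part L: closing one port (leaf).
`close_En`: with `t = τ/γ_y`, `α = K y ·`, `K' a b = K a b - t α_a α_b` off `y`, `K' y · = 0`,
`|t|² μ = 1 + Re (i t S_yy)`, and unitarity gives `∑_{b ≠ y} conj(K a b) α_b = (i/2)(conj α_a S_yy - α_a)`. -/

set_option autoImplicit false
set_option linter.unusedSectionVars false

open Finset Complex
open scoped Matrix.Norms.L2Operator Matrix

namespace Crest.Agent.N334.AC

variable {ι : Type} [Fintype ι] [DecidableEq ι] {A : Matrix ι ι ℂ} {w : ι → ℂ} {y : ι} {v : ℝ}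

lemma gam_cls_self (w : ι → ℂ) (y : ι) (v : ℝ) : gam (cls1 w y v) y = 0 := by
  simp [gam, cls1]
lemma gam_cls_ne (w : ι → ℂ) (v : ℝ) {x : ι} (h : x ≠ y) : gam (cls1 w y v) x = gam w x := by
  simp [gam, cls1, h]

namespace Clo

lemma tau_mul {g w : ℂ} {v : ℝ} (hy : 1 + ((v : ℂ) - w) * g ≠ 0) :
    tau g w v = ((v : ℂ) - w) * (1 - tau g w v * g) := by
  have : tau g w v * (1 + ((v : ℂ) - w) * g) = v - w := div_mul_cancel₀ _ hy
  linear_combination this

lemma mul_eq (h : Adm A w) (hy : 1 + ((v : ℂ) - w y) * Gm A w y y ≠ 0) :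
    Hm A (cls1 w y v) * Matrix.of (fun a b =>
      Gm A w a b - tau (Gm A w y y) (w y) v * Gm A w a y * Gm A w y b) = 1 := by
  have e : Hm A (cls1 w y v) = Hm A w + Matrix.diagonal (Pi.single y ((v : ℂ) - w y)) := by
    rw [Hm, Hm, add_assoc, Matrix.diagonal_add]
    congr 2
    funext x
    by_cases hx : x = y
    · simp [cls1, hx]
    · simp [cls1, hx]
  have h1 : ∀ a b, ∑ c, Hm A w a c * Gm A w c b = (1 : Matrix ι ι ℂ) a b := fun a b =>
    congrFun (congrFun (Matrix.mul_nonsing_inv _ h.inv) a) b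
  ext a b
  rw [e, add_mul, Matrix.add_apply, Matrix.diagonal_mul, Matrix.mul_apply]
  have e2 : ∑ c, Hm A w a c * Matrix.of (fun a b =>
      Gm A w a b - tau (Gm A w y y) (w y) v * Gm A w a y * Gm A w y b) c b =
      ∑ c, Hm A w a c * Gm A w c b -
        tau (Gm A w y y) (w y) v * (∑ c, Hm A w a c * Gm A w c y) * Gm A w y b := by
    rw [mul_sum, sum_mul, ← sum_sub_distrib]
    exact sum_congr rfl fun c _ => by rw [Matrix.of_apply]; ring
  rw [e2, h1, h1, Matrix.of_apply]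
  by_cases ha : a = y
  · rw [ha, Matrix.one_apply_eq, Pi.single_eq_same]
    linear_combination -Gm A w y b * tau_mul hy
  · rw [Matrix.one_apply_ne ha, Pi.single_eq_of_ne ha]
    ring

lemma tid {t g δ : ℂ} {γ : ℝ} (hγ : 0 < γ) (hδ : δ.im = γ) (h : γ * t = δ * (1 - γ * t * g)) :
    ‖t‖ ^ 2 * (γ * (g.im - γ * ‖g‖ ^ 2)) = 1 + (I * t * (1 + 2 * I * (γ * g))).re := by
  have ha := congrArg re h
  have hb := congrArg im h
  simp only [Complex.sq_norm, normSq_apply, mul_re, mul_im, sub_re, sub_im, add_re, add_im, one_re,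
    one_im, ofReal_re, ofReal_im, I_re, I_im, re_ofNat, im_ofNat, hδ] at ha hb ⊢
  refine mul_left_cancel₀ hγ.ne' ?_
  linear_combination (1 - γ * (t.re * g.re - t.im * g.im)) * hb +
    γ * (t.re * g.im + t.im * g.re) * ha





lemma form (K : Matrix ι ι ℂ) (y : ι) (f g : ι → ℂ) : f ⬝ᵥ Xm K y *ᵥ g =
    I * ((fun a => K y a * (Rm K y *ᵥ f) a) ⬝ᵥ (Sm K).map (starRingEnd ℂ) *ᵥ
      fun b => K y b * (Rm K y *ᵥ g) b) := by
  rw [Xm, ← Matrix.mulVec_mulVec, ← Matrix.mulVec_mulVec, Matrix.dotProduct_mulVec,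
    Matrix.vecMul_transpose]
  generalize Rm K y *ᵥ f = f'
  generalize Rm K y *ᵥ g = g'
  simp only [dotProduct, Matrix.mulVec, mul_sum, Matrix.of_apply, Matrix.map_apply]
  exact sum_congr rfl fun a _ => sum_congr rfl fun b _ => by ring


end Clo

open Clo

lemma Adm.close (h : Adm A w) (hy : 1 + ((v : ℂ) - w y) * Gm A w y y ≠ 0) : Adm A (cls1 w y v) := by
  refine ⟨h.symm, h.herm, fun x => ?_, Matrix.isUnit_det_of_right_inverse (Clo.mul_eq h hy)⟩
  by_cases hx : x = y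
  · rw [hx, gam_cls_self]
  · rw [gam_cls_ne w v hx]; exact h.diss x

lemma Adm.close_G (h : Adm A w) (hy : 1 + ((v : ℂ) - w y) * Gm A w y y ≠ 0) (a b : ι) :
    Gm A (cls1 w y v) a b = Gm A w a b - tau (Gm A w y y) (w y) v * Gm A w a y * Gm A w y b := by
  rw [Gm, Matrix.inv_eq_right_inv (Clo.mul_eq h hy), Matrix.of_apply]



/-- `|τ|² ι = γ - 2γ Re (τ G) - Im τ` -/
lemma Adm.tau_id (h : Adm A w) (hy : 1 + ((v : ℂ) - w y) * Gm A w y y ≠ 0) (hγ : 0 < gam w y) :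
    ‖tau (Gm A w y y) (w y) v / (gam w y : ℝ)‖ ^ 2 * mu (Km A w) y =
      1 + (I * (tau (Gm A w y y) (w y) v / (gam w y : ℝ)) * Sm (Km A w) y y).re := by
  have h0 : (gam w y : ℂ) ≠ 0 := ofReal_ne_zero.2 hγ.ne'
  have e : Sm (Km A w) y y = 1 + 2 * I * (gam w y * Gm A w y y) := by
    rw [← h.K_diag]; simp [Sm]
  rw [h.mu_eq, e]
  refine tid (δ := v - w y) hγ (by simp [gam]) ?_
  rw [mul_div_cancel₀ _ h0]
  exact tau_mul hy








end Crest.Agent.N334.AC
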