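import Crest.Agent.N334.AC.L.Defs
import Crest.Agent.N334.AC.Cls

/-! # S0520 part L: port algebra (leaf) -/

set_option autoImplicit false
set_option linter.unusedSectionVars false

open Finset Complex
open scoped Matrix.Norms.L2Operator Matrix

namespace Crest.Agent.N334.AC

variable {ι : Type} [Fintype ι] [DecidableEq ι] {A : Matrix ι ι ℂ} {w : ι → ℂ}

namespace Bs

theorem bd (X : Matrix ι ι ℂ) : Bd X ‖X‖ := (bd_iff_norm (norm_nonneg _)).2 le_rfl

omit [DecidableEq ι] in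
theorem dual {x : ι → ℂ} {c : ℝ} (hc : 0 ≤ c) (h : ∀ y, ‖y ⬝ᵥ x‖ ^ 2 ≤ c * nsq y) :
    nsq x ≤ c := by
  have h1 := h (star x)
  rw [dot_self, nsq_star, Complex.norm_real, Real.norm_of_nonneg (nsq_nonneg x)] at h1
  rcases (nsq_nonneg x).eq_or_lt with h0 | h0
  · rwa [← h0]
  · nlinarith

omit [Fintype ι] in
theorem cmp_eq (X : Matrix ι ι ℂ) (Q : Finset ι) : cmp X Q = mask Q Q X := rfl

omit [Fintype ι] in
theorem cut_eq {x : ι → ℂ} {Q : Finset ι} (h : Supp x Q) : cut Q x = x := by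
  funext a
  by_cases ha : a ∈ Q
  · simp [cut, ha]
  · simp [cut, ha, h a ha]

omit [Fintype ι] in
theorem supp_cut (x : ι → ℂ) (Q : Finset ι) : Supp (cut Q x) Q := fun a ha => by simp [cut, ha]

theorem dot_cut (x y : ι → ℂ) (Q : Finset ι) : x ⬝ᵥ cut Q y = cut Q x ⬝ᵥ y := by
  refine sum_congr rfl fun a _ => ?_
  by_cases ha : a ∈ Q <;> simp [cut, ha]

theorem form_cut (X : Matrix ι ι ℂ) (Q : Finset ι) (x y : ι → ℂ) :
    x ⬝ᵥ cmp X Q *ᵥ y = cut Q x ⬝ᵥ X *ᵥ cut Q y := by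
  rw [cmp_eq, mask_mulVec, dot_cut]

/-- Cauchy-Schwarz for a sum of bounded terms -/
theorem norm_sum_sq_le {κ : Type} (s : Finset κ) {t : κ → ℂ} {f g : κ → ℝ} {c : ℝ}
    (hf : ∀ k ∈ s, 0 ≤ f k) (hg : ∀ k ∈ s, 0 ≤ g k)
    (h : ∀ k ∈ s, ‖t k‖ ^ 2 ≤ c ^ 2 * (f k * g k)) :
    ‖∑ k ∈ s, t k‖ ^ 2 ≤ c ^ 2 * ((∑ k ∈ s, f k) * ∑ k ∈ s, g k) := by
  have h1 := sum_sq_le_sum_mul_sum_of_sq_le_mul s (r := fun k => ‖t k‖)
    (f := fun k => c ^ 2 * f k) (g := g) (fun k hk => mul_nonneg (sq_nonneg c) (hf k hk)) hg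
    fun k hk => by rw [mul_assoc]; exact h k hk
  rw [← mul_sum, mul_assoc] at h1
  exact (pow_le_pow_left₀ (norm_nonneg _) (norm_sum_le _ _) 2).trans h1

/-- Hilbert-Schmidt norm against rank -/
theorem hs_le_rank (M : Matrix ι ι ℂ) : ∑ a, ∑ b, ‖M a b‖ ^ 2 ≤ M.rank * ‖M‖ ^ 2 := by
  open scoped ComplexOrder in
  have hH := Matrix.isHermitian_conjTranspose_mul_self M
  have h1 : ∑ a, ∑ b, ‖M a b‖ ^ 2 = ∑ i, hH.eigenvalues i := by
    have h2 := hH.trace_eq_sum_eigenvalues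
    have h3 : (Mᴴ * M).trace = ((∑ a, ∑ b, ‖M a b‖ ^ 2 : ℝ) : ℂ) := by
      rw [sum_comm]
      simp [Matrix.trace, Matrix.mul_apply, Complex.conj_mul']
    rw [h3] at h2
    refine Complex.ofReal_injective (h2.trans ?_)
    rw [Complex.ofReal_sum]
    rfl
  have h2 : ∀ i, hH.eigenvalues i ≤ ‖M‖ ^ 2 := fun i => by
    have h3 := hH.eigenvalues_eq i
    have h4 : nsq (hH.eigenvectorBasis i).ofLp = 1 := by
      rw [nsq_eq_norm, WithLp.toLp_ofLp, hH.eigenvectorBasis.orthonormal.1 i, one_pow]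
    rw [gram_form, dot_self] at h3
    have h5 := bd M (hH.eigenvectorBasis i).ofLp
    rw [h4, mul_one] at h5
    rw [h3]
    exact h5
  rw [h1, ← Matrix.rank_conjTranspose_mul_self, hH.rank_eq_card_non_zero_eigs,
    Fintype.card_subtype, ← sum_filter_ne_zero, ← nsmul_eq_mul]
  exact sum_le_card_nsmul _ _ _ fun i _ => h2 i



/-- the bilinear form of the energy -/
noncomputable def Bf (K : Matrix ι ι ℂ) : LinearMap.BilinForm ℝ (ι → ℝ) :=
  LinearMap.mk₂ ℝ (fun f g => (1 / 2) * ∑ a, ∑ b, ‖K a b‖ ^ 2 * ((f a - f b) * (g a - g b)))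
    (fun f f' g => by
      simp only [← mul_add, ← sum_add_distrib, Pi.add_apply]
      congr 1
      exact sum_congr rfl fun a _ => sum_congr rfl fun b _ => by ring)
    (fun c f g => by
      simp only [smul_eq_mul, Pi.smul_apply, mul_sum]
      exact sum_congr rfl fun a _ => sum_congr rfl fun b _ => by ring)
    (fun f g g' => by
      simp only [← mul_add, ← sum_add_distrib, Pi.add_apply]
      congr 1
      exact sum_congr rfl fun a _ => sum_congr rfl fun b _ => by ring)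
    (fun c f g => by
      simp only [smul_eq_mul, Pi.smul_apply, mul_sum]
      exact sum_congr rfl fun a _ => sum_congr rfl fun b _ => by ring)

omit [DecidableEq ι] in
theorem Bf_self (K : Matrix ι ι ℂ) (f : ι → ℝ) : Bf K f f = En K f := by
  simp only [Bf, LinearMap.mk₂_apply, En, sq]

omit [DecidableEq ι] in
theorem Bf_comm (K : Matrix ι ι ℂ) (f g : ι → ℝ) : Bf K f g = Bf K g f := by
  simp only [Bf, LinearMap.mk₂_apply, mul_comm (f _ - f _)]

omit [DecidableEq ι] in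
theorem En_sum {κ : Type} [Fintype κ] (K : Matrix ι ι ℂ) {v : κ → ι → ℝ}
    (hv : ∀ i j, i ≠ j → Bf K (v i) (v j) = 0) (c : κ → ℝ) :
    En K (∑ j, c j • v j) = ∑ j, c j ^ 2 * En K (v j) := by
  rw [← Bf_self, map_sum]
  refine sum_congr rfl fun j _ => ?_
  rw [map_sum, LinearMap.sum_apply, sum_eq_single j]
  · simp only [map_smul, LinearMap.smul_apply, smul_eq_mul, Bf_self]
    ring
  · intro i _ hij
    simp only [map_smul, LinearMap.smul_apply, smul_eq_mul, hv i j hij, mul_zero]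
  · simp

end Bs

open Bs

lemma nsq_mulVec_le (X : Matrix ι ι ℂ) (x : ι → ℂ) : nsq (X *ᵥ x) ≤ ‖X‖ ^ 2 * nsq x := by
  exact bd X x

lemma norm_le_of_nsq {X : Matrix ι ι ℂ} {a : ℝ} (ha : 0 ≤ a)
    (h : ∀ x, nsq (X *ᵥ x) ≤ a ^ 2 * nsq x) : ‖X‖ ≤ a := by
  exact (bd_iff_norm ha).1 h


lemma norm_form_sq_le (X : Matrix ι ι ℂ) (x y : ι → ℂ) :
    ‖x ⬝ᵥ X *ᵥ y‖ ^ 2 ≤ ‖X‖ ^ 2 * (nsq x * nsq y) := by
  exact (bd X).dot x y

lemma norm_le_of_form {X : Matrix ι ι ℂ} {a : ℝ} (ha : 0 ≤ a)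
    (h : ∀ x y, ‖x ⬝ᵥ X *ᵥ y‖ ^ 2 ≤ a ^ 2 * (nsq x * nsq y)) : ‖X‖ ≤ a := by
  refine (bd_iff_norm ha).1 fun x => dual (mul_nonneg (sq_nonneg a) (nsq_nonneg x)) fun y => ?_
  rw [mul_assoc, mul_comm (nsq x)]
  exact h y x

lemma nsq_le_of_dual {x : ι → ℂ} {c : ℝ} (hc : 0 ≤ c) (h : ∀ y, ‖y ⬝ᵥ x‖ ^ 2 ≤ c * nsq y) :
    nsq x ≤ c := by
  exact dual hc h

lemma norm_entry_le (X : Matrix ι ι ℂ) (a b : ι) : ‖X a b‖ ≤ ‖X‖ := by
  exact (bd X).entry (norm_nonneg _) a b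

lemma row_sq_le (X : Matrix ι ι ℂ) (a : ι) : ∑ b, ‖X a b‖ ^ 2 ≤ ‖X‖ ^ 2 := by
  exact (bd X).row a


lemma norm_sq_le_hs (X : Matrix ι ι ℂ) : ‖X‖ ^ 2 ≤ ∑ a, ∑ b, ‖X a b‖ ^ 2 := by
  have h0 : 0 ≤ ∑ a, ∑ b, ‖X a b‖ ^ 2 := by positivity
  have h1 := (bd_iff_norm (Real.sqrt_nonneg _)).1 (bd_hs X (Real.sq_sqrt h0).ge)
  exact (pow_le_pow_left₀ (norm_nonneg _) h1 2).trans (Real.sq_sqrt h0).le

lemma norm_transpose' (X : Matrix ι ι ℂ) : ‖Xᵀ‖ = ‖X‖ := by
  exact le_antisymm ((bd_iff_norm (norm_nonneg _)).1 (bd X).transpose)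
    ((bd_iff_norm (norm_nonneg _)).1 (bd Xᵀ).transpose)

lemma norm_diagonal_le {u : ι → ℂ} {a : ℝ} (ha : 0 ≤ a) (h : ∀ x, ‖u x‖ ≤ a) :
    ‖Matrix.diagonal u‖ ≤ a := by
  exact (bd_iff_norm ha).1 (bd_diagonal h)

/-- Schur test -/
lemma norm_le_schur {X : Matrix ι ι ℂ} {s : ℝ} (hs : 0 ≤ s) (hr : ∀ a, ∑ b, ‖X a b‖ ≤ s)
    (hc : ∀ b, ∑ a, ‖X a b‖ ≤ s) : ‖X‖ ≤ s := by
  have h := bd_schur X hs hs hr hc
  rw [Real.sqrt_mul_self hs] at h
  exact (bd_iff_norm hs).1 h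

/-- Schur product with a factorised matrix -/
lemma norm_hadamard_le {κ : Type} [Fintype κ] (X : Matrix ι ι ℂ) (Y Z : Matrix ι κ ℂ) {a b : ℝ}
    (ha : 0 ≤ a) (hb : 0 ≤ b) (hY : ∀ x, ∑ k, ‖Y x k‖ ^ 2 ≤ a ^ 2) (hZ : ∀ x, ∑ k, ‖Z x k‖ ^ 2 ≤ b ^ 2) :
    ‖Matrix.hadamard X (Y * Zᵀ)‖ ≤ ‖X‖ * a * b := by
  refine norm_le_of_form (by positivity) fun u v => ?_
  have e : u ⬝ᵥ Matrix.hadamard X (Y * Zᵀ) *ᵥ v =
      ∑ k, (fun x => u x * Y x k) ⬝ᵥ X *ᵥ fun x => v x * Z x k := by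
    simp only [dotProduct, Matrix.mulVec, Matrix.hadamard_apply, Matrix.mul_apply,
      Matrix.transpose_apply, mul_sum, sum_mul]
    rw [sum_comm (s := univ) (t := univ) (β := ℂ) (f := fun (k : κ) (x : ι) =>
      ∑ y, u x * Y x k * (X x y * (v y * Z y k)))]
    refine sum_congr rfl fun x _ => ?_
    rw [sum_comm]
    exact sum_congr rfl fun k _ => sum_congr rfl fun y _ => by ring
  have hs : ∀ (u : ι → ℂ) (Y : Matrix ι κ ℂ) (a : ℝ), (∀ x, ∑ k, ‖Y x k‖ ^ 2 ≤ a ^ 2) →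
      ∑ k, nsq (fun x => u x * Y x k) ≤ a ^ 2 * nsq u := fun u Y a hY => by
    simp only [nsq, norm_mul, mul_pow]
    rw [sum_comm, mul_sum]
    refine sum_le_sum fun x _ => ?_
    rw [← mul_sum, mul_comm]
    exact mul_le_mul_of_nonneg_right (hY x) (sq_nonneg _)
  rw [e]
  refine (norm_sum_sq_le univ (fun k _ => nsq_nonneg _) (fun k _ => nsq_nonneg _)
    fun k _ => norm_form_sq_le X _ _).trans ?_
  have h1 := mul_le_mul (hs u Y a hY) (hs v Z b hZ) (sum_nonneg fun k _ => nsq_nonneg _)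
    (mul_nonneg (sq_nonneg a) (nsq_nonneg u))
  calc _ ≤ ‖X‖ ^ 2 * (a ^ 2 * nsq u * (b ^ 2 * nsq v)) := by gcongr
    _ = _ := by ring

/-- Hilbert-Schmidt norm of a matrix that factors through `B` -/
lemma hs_le_card {W Y : Matrix ι ι ℂ} {B : Finset ι} (hY : ∀ x b, x ∉ B → Y x b = 0) :
    ∑ a, ∑ b, ‖(W * Y) a b‖ ^ 2 ≤ B.card * ‖W * Y‖ ^ 2 := by
  refine (hs_le_rank _).trans (mul_le_mul_of_nonneg_right ?_ (sq_nonneg _))
  have e : Y = Pm B * Y := by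
    ext x b
    rw [Pm, Matrix.diagonal_mul]
    by_cases hx : x ∈ B
    · simp [hx]
    · simp [hx, hY x b hx]
  have h1 : (Pm B).rank = B.card := by
    rw [Pm, Matrix.rank_diagonal]
    simp
  rw [← h1, e, Nat.cast_le]
  exact (Matrix.rank_mul_le_right _ _).trans (Matrix.rank_mul_le_left _ _)

lemma norm_cmp_le (X : Matrix ι ι ℂ) (Q : Finset ι) : ‖cmp X Q‖ ≤ ‖X‖ := by
  exact (bd_iff_norm (norm_nonneg _)).1 ((bd X).mask Q Q)

lemma norm_cmp_mono (X : Matrix ι ι ℂ) {Q Q' : Finset ι} (h : Q ⊆ Q') :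
    ‖cmp X Q‖ ≤ ‖cmp X Q'‖ := by
  have e : cmp X Q = cmp (cmp X Q') Q := by
    ext a b
    by_cases hab : a ∈ Q ∧ b ∈ Q
    · simp [cmp, hab, h hab.1, h hab.2]
    · simp [cmp, hab]
  rw [e]
  exact norm_cmp_le _ _

lemma form_cmp (X : Matrix ι ι ℂ) {Q : Finset ι} {x y : ι → ℂ} (hx : Supp x Q) (hy : Supp y Q) :
    x ⬝ᵥ cmp X Q *ᵥ y = x ⬝ᵥ X *ᵥ y := by
  rw [form_cut, cut_eq hx, cut_eq hy]

lemma norm_cmp_le_of_form {X : Matrix ι ι ℂ} {Q : Finset ι} {a : ℝ} (ha : 0 ≤ a)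
    (h : ∀ x y, Supp x Q → Supp y Q → ‖x ⬝ᵥ X *ᵥ y‖ ^ 2 ≤ a ^ 2 * (nsq x * nsq y)) :
    ‖cmp X Q‖ ≤ a := by
  refine norm_le_of_form ha fun x y => ?_
  rw [form_cut]
  refine (h _ _ (supp_cut x Q) (supp_cut y Q)).trans ?_
  have := nsq_nonneg (cut Q y)
  have := nsq_nonneg x
  gcongr
  exacts [nsq_cut_le _ _, nsq_cut_le _ _]

lemma norm_blk {B : Type} [Fintype B] [DecidableEq B] (X : Matrix ι ι ℂ) {e : B → ι}
    (he : Function.Injective e) (Q : Finset ι) : ‖blk X e Q‖ = ‖cmp X (Q ∩ univ.image e)‖ := by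
  obtain ⟨E, hE⟩ : ∃ E : Matrix ι B ℂ, ∀ a u, E a u = if e u = a then 1 else 0 :=
    ⟨fun a u => if e u = a then 1 else 0, fun _ _ => rfl⟩
  have hb : Bd E 1 := by
    have h1 := bd_schur E (R := 1) (C := 1) zero_le_one zero_le_one (fun a => ?_) fun u => ?_
    · simpa using h1
    · by_cases ha : ∃ u, e u = a
      · obtain ⟨u, rfl⟩ := ha
        simp [hE, he.eq_iff, apply_ite]
      · push Not at ha
        simp [hE, ha]
    · simp [hE, apply_ite]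
  have e1 : blk X e Q = Eᵀ * cmp X (Q ∩ univ.image e) * E := by
    ext u v
    simp only [Matrix.mul_apply, Matrix.transpose_apply, hE, ite_mul, one_mul, zero_mul, mul_ite,
      mul_one, mul_zero, sum_ite_eq, mem_univ, if_true]
    simp [blk, cmp]
  have e2 : cmp X (Q ∩ univ.image e) = E * blk X e Q * Eᵀ := by
    ext a b
    by_cases ha : ∃ u, e u = a
    · obtain ⟨u, rfl⟩ := ha
      by_cases hb : ∃ v, e v = b
      · obtain ⟨v, rfl⟩ := hb
        simp only [Matrix.mul_apply, Matrix.transpose_apply, hE, he.eq_iff, ite_mul, one_mul,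
          zero_mul, mul_ite, mul_one, mul_zero, sum_ite_eq', mem_univ, if_true]
        simp [blk, cmp]
      · push Not at hb
        simp [Matrix.mul_apply, hE, cmp, hb]
    · push Not at ha
      simp [Matrix.mul_apply, hE, cmp, ha]
  refine le_antisymm ((bd_iff_norm (norm_nonneg _)).1 ?_) ((bd_iff_norm (norm_nonneg _)).1 ?_)
  · have h1 := (hb.transpose.mul (bd (cmp X (Q ∩ univ.image e)))).mul hb
    rwa [one_mul, mul_one, ← e1] at h1
  · have h1 := (hb.mul (bd (blk X e Q))).mul hb.transpose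
    rwa [one_mul, mul_one, ← e2] at h1

/-- averaging localized matrices -/
lemma norm_sum_local_le [Nonempty ι] {κ : Type} (s : Finset κ) (X : κ → Matrix ι ι ℂ) (Q : κ → Finset ι)
    {a n : ℝ} (ha : 0 ≤ a) (hX : ∀ p ∈ s, cmp (X p) (Q p) = X p ∧ ‖X p‖ ≤ a)
    (hn : ∀ x, ((s.filter fun p => x ∈ Q p).card : ℝ) ≤ n) : ‖∑ p ∈ s, X p‖ ≤ n * a := by
  have hn0 : 0 ≤ n := (Nat.cast_nonneg _).trans (hn (Classical.arbitrary ι))
  refine norm_le_of_form (by positivity) fun x y => ?_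
  have hs : ∀ x : ι → ℂ, ∑ p ∈ s, nsq (cut (Q p) x) ≤ n * nsq x := fun x => by
    have e : ∀ p, nsq (cut (Q p) x) = ∑ i, if i ∈ Q p then ‖x i‖ ^ 2 else 0 := fun p =>
      sum_congr rfl fun i _ => by by_cases hi : i ∈ Q p <;> simp [cut, hi]
    simp only [e]
    rw [sum_comm, nsq, mul_sum]
    refine sum_le_sum fun i _ => ?_
    rw [← sum_filter, sum_const, nsmul_eq_mul]
    exact mul_le_mul_of_nonneg_right (hn i) (sq_nonneg _)
  rw [Matrix.sum_mulVec, dotProduct_sum]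
  refine (norm_sum_sq_le s (c := a) (f := fun p => nsq (cut (Q p) x))
    (g := fun p => nsq (cut (Q p) y)) (fun k _ => nsq_nonneg _) (fun k _ => nsq_nonneg _)
    fun p hp => ?_).trans ?_
  · rw [← (hX p hp).1, form_cut]
    refine (norm_form_sq_le _ _ _).trans ?_
    have := nsq_nonneg (cut (Q p) y)
    have := nsq_nonneg (cut (Q p) x)
    gcongr
    exact (hX p hp).2
  · have h1 := mul_le_mul (hs x) (hs y) (sum_nonneg fun k _ => nsq_nonneg _)
      (mul_nonneg hn0 (nsq_nonneg x))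
    calc _ ≤ a ^ 2 * (n * nsq x * (n * nsq y)) := by gcongr
      _ = _ := by ring


lemma Adm.G_sym (h : Adm A w) (a b : ι) : Gm A w a b = Gm A w b a := by
  exact h.G_comm a b

lemma Adm.K_sym (h : Adm A w) (a b : ι) : Km A w a b = Km A w b a := by
  exact ((Km_isSymm h.symm).apply _ _).symm

lemma Adm.K_sq (h : Adm A w) (a b : ι) :
    ‖Km A w a b‖ ^ 2 = gam w a * gam w b * ‖Gm A w a b‖ ^ 2 := by
  simp only [Km, norm_mul, mul_pow, Complex.norm_real, Real.norm_eq_abs, sq_abs,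
    Real.sq_sqrt (h.diss _)]
  ring

lemma Adm.K_diag (h : Adm A w) (a : ι) : Km A w a a = (gam w a : ℂ) * Gm A w a a := by
  rw [Km, mul_right_comm, ← Complex.ofReal_mul, Real.mul_self_sqrt (h.diss a)]

lemma Adm.G_ward (h : Adm A w) (x : ι → ℂ) :
    ∑ b, gam w b * ‖(Gm A w *ᵥ x) b‖ ^ 2 = (star x ⬝ᵥ Gm A w *ᵥ x).im := by
  exact Gm_ward h x

lemma Adm.ward_diag (h : Adm A w) (a : ι) :
    ∑ b, gam w b * ‖Gm A w a b‖ ^ 2 = (Gm A w a a).im := by
  rw [← h.ward_col a]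
  exact sum_congr rfl fun b _ => by rw [h.G_comm]

lemma Adm.K_ward (h : Adm A w) (x : ι → ℂ) :
    nsq (Km A w *ᵥ x) = (star x ⬝ᵥ Km A w *ᵥ x).im := by
  exact h.wardK x

lemma Adm.K_row (h : Adm A w) (a : ι) : ∑ b, ‖Km A w a b‖ ^ 2 = gam w a * (Gm A w a a).im := by
  rw [h.wardK.row (Km_isSymm h.symm), h.K_diag, Complex.im_ofReal_mul]

lemma Adm.norm_K (h : Adm A w) : ‖Km A w‖ ≤ 1 := by
  exact (bd_iff_norm zero_le_one).1 h.bd_K



lemma Adm.mu_eq (h : Adm A w) (y : ι) :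
    mu (Km A w) y = gam w y * ((Gm A w y y).im - gam w y * ‖Gm A w y y‖ ^ 2) := by
  have h1 := h.K_row y
  rw [← add_sum_erase _ _ (mem_univ y), h.K_sq] at h1
  rw [mu]
  linear_combination h1

/-- on ports with `γ ≥ g` the Green matrix is bounded by `1/g` -/
lemma Adm.norm_cmp (h : Adm A w) {Q : Finset ι} {g : ℝ} (hg : 0 < g) (hQ : ∀ x ∈ Q, g ≤ gam w x) :
    ‖cmp (Gm A w) Q‖ ≤ 1 / g := by
  refine norm_le_of_nsq (by positivity) fun x => ?_
  rw [cmp_eq, mask_mulVec]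
  set u := Gm A w *ᵥ cut Q x with hu
  have h1 : g * nsq (cut Q u) ≤ ∑ b, gam w b * ‖u b‖ ^ 2 := by
    rw [nsq_cut, mul_sum]
    exact (sum_le_sum fun b hb => mul_le_mul_of_nonneg_right (hQ b hb) (sq_nonneg _)).trans
      (sum_le_sum_of_subset_of_nonneg (subset_univ Q) fun b _ _ =>
        mul_nonneg (h.diss b) (sq_nonneg _))
  have h2 : star (cut Q x) ⬝ᵥ u = star x ⬝ᵥ cut Q u :=
    sum_congr rfl fun a _ => by by_cases ha : a ∈ Q <;> simp [cut, ha]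
  rw [hu, Gm_ward h, ← hu, h2] at h1
  have h3 := cs x (cut Q u)
  have h4 := h1.trans (Complex.im_le_norm _)
  have h5 := nsq_nonneg (cut Q u)
  have h6 := (pow_le_pow_left₀ (by positivity) h4 2).trans h3
  rw [div_pow, one_pow, div_mul_eq_mul_div, one_mul, le_div_iff₀ (by positivity)]
  rcases h5.eq_or_lt with h0 | h0
  · rw [← h0, zero_mul]; exact nsq_nonneg x
  · nlinarith

/-- invertibility only depends on the data off the ports -/
lemma Adm.retune (h : Adm A w) {w' : ι → ℂ} (h0 : ∀ x, 0 ≤ gam w' x)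
    (h1 : ∀ x, w' x ≠ w x → 0 < gam w' x) : Adm A w' := by
  refine ⟨h.symm, h.herm, h0, isUnit_det_of_inj fun x hx => ?_⟩
  have h2 := im_form h.herm w' x
  rw [hx, dotProduct_zero, Complex.zero_im, eq_comm, neg_eq_zero,
    sum_eq_zero_iff_of_nonneg fun a _ => mul_nonneg (h0 a) (sq_nonneg _)] at h2
  have h3 : Dm w w' *ᵥ x = 0 := by
    funext a
    rw [Dm, Matrix.mulVec_diagonal, Pi.zero_apply]
    by_cases ha : w' a = w a
    · rw [ha, sub_self, zero_mul]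
    · have h4 := (mul_eq_zero.1 (h2 a (mem_univ a))).resolve_left (h1 a ha).ne'
      rw [norm_eq_zero.1 (pow_eq_zero_iff two_ne_zero |>.1 h4), mul_zero]
  rw [Hm_eq A w w', Matrix.add_mulVec, h3, add_zero] at hx
  rw [← Matrix.one_mulVec x, ← h.GH, ← Matrix.mulVec_mulVec, hx, Matrix.mulVec_zero]

lemma Adm.resolvent (h : Adm A w) {w' : ι → ℂ} (h' : Adm A w') :
    Gm A w' = Gm A w - Gm A w * Matrix.diagonal (w' - w) * Gm A w' := by
  exact res1 h h'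

lemma Adm.resolvent' (h : Adm A w) {w' : ι → ℂ} (h' : Adm A w') :
    Gm A w' = Gm A w - Gm A w' * Matrix.diagonal (w' - w) * Gm A w := by
  exact res2 h h'

lemma En_nn (K : Matrix ι ι ℂ) (f : ι → ℝ) : 0 ≤ En K f := by
  exact En_nonneg K f


/-- the energy only sees the ports -/
lemma En_congr {f g : ι → ℝ} (hfg : ∀ x, gam w x ≠ 0 → f x = g x) :
    En (Km A w) f = En (Km A w) g := by
  unfold En
  congr 1
  refine sum_congr rfl fun a _ => sum_congr rfl fun b _ => ?_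
  by_cases ha : gam w a = 0
  · simp [Km, ha]
  by_cases hb : gam w b = 0
  · simp [Km, hb]
  rw [hfg a ha, hfg b hb]

lemma Adm.En_eq (h : Adm A w) (f : ι → ℝ) : En (Km A w) f =
    ∑ a, mu (Km A w) a * f a ^ 2 - ∑ a, ∑ b ∈ univ.erase a, ‖Km A w a b‖ ^ 2 * (f a * f b) := by
  rw [AC.En_eq (Km_isSymm h.symm), ← sum_sub_distrib, ← sum_sub_distrib]
  refine sum_congr rfl fun a _ => ?_
  rw [← add_sum_erase _ _ (mem_univ a), ← add_sum_erase _ _ (mem_univ a), mu]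
  ring

/-- normalising coordinates for a form that is definite on functions supported in `Q` -/
lemma exists_nrm (K : Matrix ι ι ℂ) (Q : Finset ι) (B : Type) [Fintype B]
    (hB : Q.card ≤ Fintype.card B) (hpos : ∀ φ : ι → ℝ, Supp φ Q → En K φ = 0 → φ = 0) :
    ∃ n : Matrix ι B ℝ, (∀ z : B → ℝ, Supp (n *ᵥ z) Q ∧ En K (n *ᵥ z) ≤ ∑ u, z u ^ 2) ∧
      ∀ φ : ι → ℝ, Supp φ Q → ∃ z : B → ℝ, n *ᵥ z = φ ∧ ∑ u, z u ^ 2 ≤ En K φ := by
  classical
  let V : Submodule ℝ (ι → ℝ) :=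
    { carrier := {φ | Supp φ Q}
      add_mem' := fun {f g} hf hg a ha => by simp [hf a ha, hg a ha]
      zero_mem' := fun _ _ => rfl
      smul_mem' := fun c f hf a ha => by simp [hf a ha] }
  have hV : Module.finrank ℝ V ≤ Q.card := by
    have h1 := LinearMap.finrank_le_finrank_of_injective
      (f := (LinearMap.funLeft ℝ ℝ (Subtype.val : Q → ι)).comp V.subtype) fun f g hfg => by
        ext a
        by_cases ha : a ∈ Q
        · exact congrFun hfg ⟨a, ha⟩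
        · rw [f.2 a ha, g.2 a ha]
    simpa using h1
  obtain ⟨v, hv⟩ := LinearMap.BilinForm.exists_orthogonal_basis (B := (Bf K).restrict V)
    ⟨fun f g => Bf_comm K f g⟩
  obtain ⟨emb⟩ : Nonempty (Fin (Module.finrank ℝ V) ↪ B) :=
    Function.Embedding.nonempty_of_card_le (by simpa using hV.trans hB)
  have hv' : ∀ i j, i ≠ j → Bf K (v i) (v j) = 0 := fun i j hij => hv hij
  have hd : ∀ j, 0 < En K (v j) := fun j => (En_nonneg K _).lt_of_ne' fun h0 =>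
    v.ne_zero j (Subtype.ext (hpos _ (v j).2 h0))
  have hn : ∀ z : B → ℝ, (Matrix.of fun x => Function.extend emb
      (fun j => (v j : ι → ℝ) x / √(En K (v j))) 0) *ᵥ z =
      ∑ j, (z (emb j) / √(En K (v j))) • (v j : ι → ℝ) := fun z => by
    funext x
    rw [Finset.sum_apply]
    refine (Fintype.sum_of_injective emb emb.injective _ _ (fun u hu => ?_) fun j => ?_).symm
    · simp only [Matrix.of_apply]
      rw [Function.extend_apply' _ _ _ hu, Pi.zero_apply, zero_mul]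
    · simp only [Matrix.of_apply]
      rw [emb.injective.extend_apply, Pi.smul_apply, smul_eq_mul]
      ring
  refine ⟨Matrix.of fun x => Function.extend emb (fun j => (v j : ι → ℝ) x / √(En K (v j))) 0,
    fun z => ?_, fun φ hφ => ?_⟩
  · rw [hn]
    refine ⟨V.sum_mem fun j _ => V.smul_mem _ (v j).2, ?_⟩
    rw [En_sum K hv']
    have h1 : ∀ j, (z (emb j) / √(En K (v j))) ^ 2 * En K (v j) = z (emb j) ^ 2 := fun j => by
      rw [div_pow, Real.sq_sqrt (hd j).le, div_mul_cancel₀ _ (hd j).ne']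
    simp only [h1]
    rw [← sum_map univ emb fun u => z u ^ 2]
    exact sum_le_sum_of_subset_of_nonneg (subset_univ _) fun _ _ _ => sq_nonneg _
  · have e : φ = ∑ j, v.repr ⟨φ, hφ⟩ j • (v j : ι → ℝ) := by
      have := congrArg Subtype.val (v.sum_repr ⟨φ, hφ⟩)
      rw [Submodule.coe_sum] at this
      exact this.symm
    refine ⟨Function.extend emb (fun j => v.repr ⟨φ, hφ⟩ j * √(En K (v j))) 0, ?_, ?_⟩
    · rw [hn]
      conv_rhs => rw [e]
      refine sum_congr rfl fun j _ => ?_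
      rw [emb.injective.extend_apply, mul_div_cancel_right₀ _ (Real.sqrt_pos.2 (hd j)).ne']
    · conv_rhs => rw [e, En_sum K hv']
      refine (Fintype.sum_of_injective emb emb.injective _ _ (fun u hu => ?_) fun j => ?_).ge
      · rw [Function.extend_apply' _ _ _ hu]
        simp
      · rw [emb.injective.extend_apply, mul_pow, Real.sq_sqrt (hd j).le]


end Crest.Agent.N334.AC
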