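import Crest.Agent.N334.AC.L.Basic

-- ▼ part N334/AC/L/Jump
section

/-! # S0520 part L: retuning the open ports (leaf).
With `t = Δ/γ` (`0` on closed sites), `K̃ = γ^{1/2} G' γ^{1/2}` (old `γ`): `(1 + K t) K̃ = K`,
`(1 + K t) [f, K̃] = [f, K] (1 - t K̃)`, `En = ½ ‖[f,K]‖²_HS`, `K' = r K̃ r`, `r² = γ'/γ ∈ [1-δ,1+δ]`. -/

set_option autoImplicit false
set_option linter.unusedSectionVars false

open Finset Complex
open scoped Matrix.Norms.L2Operator Matrix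

namespace Crest.Agent.N334.AC

variable {ι : Type} [Fintype ι] [DecidableEq ι] {A : Matrix ι ι ℂ} {w w' : ι → ℂ} {δ : ℝ}

/-- a retuning of relative size `δ` -/
structure Jmp (A : Matrix ι ι ℂ) (w w' : ι → ℂ) (δ : ℝ) : Prop where
  adm : Adm A w
  δ0 : 0 ≤ δ
  δ1 : δ ≤ 1 / 10
  le : ∀ x, ‖w' x - w x‖ ≤ δ * gam w x

lemma Jmp.gam_le (h : Jmp A w w' δ) (x : ι) :
    (1 - δ) * gam w x ≤ gam w' x ∧ gam w' x ≤ (1 + δ) * gam w x := by
  have h1 := abs_le.1 ((Complex.abs_im_le_norm (w' x - w x)).trans (h.le x))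
  simp only [gam, sub_im] at h1 ⊢
  constructor <;> linarith [h1.1, h1.2]

lemma Jmp.adm' (h : Jmp A w w' δ) : Adm A w' := by
  have h1 : 0 < 1 - δ := by linarith [h.δ1]
  refine h.adm.retune (fun x => (mul_nonneg h1.le (h.adm.diss x)).trans (h.gam_le x).1)
    fun x hx => lt_of_lt_of_le (mul_pos h1 ((h.adm.diss x).lt_of_ne fun e => hx ?_)) (h.gam_le x).1
  have := h.le x
  rw [← e, mul_zero, norm_le_zero_iff, sub_eq_zero] at this
  exact this

namespace Jp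

/-- `γ^{1/2}` -/
noncomputable def jS (w : ι → ℂ) : Matrix ι ι ℂ := Matrix.diagonal fun a => (√(gam w a) : ℂ)
/-- relative jump -/
noncomputable def jt (w w' : ι → ℂ) : Matrix ι ι ℂ :=
  Matrix.diagonal fun a => (w' a - w a) / (gam w a : ℂ)
/-- new Green matrix between the old ports -/
noncomputable def jK (A : Matrix ι ι ℂ) (w w' : ι → ℂ) : Matrix ι ι ℂ := jS w * Gm A w' * jS w
noncomputable def jT (A : Matrix ι ι ℂ) (w w' : ι → ℂ) : Matrix ι ι ℂ :=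
  jt w w' - jt w w' * jK A w w' * jt w w'

lemma jK0_eq (A : Matrix ι ι ℂ) (w : ι → ℂ) : Km A w = jS w * Gm A w * jS w := by
  ext a b; simp [Km, jS]

lemma jD_eq (h : Jmp A w w' δ) : Matrix.diagonal (w' - w) = jS w * jt w w' * jS w := by
  rw [jS, jt, Matrix.diagonal_mul_diagonal, Matrix.diagonal_mul_diagonal]
  congr 1
  funext a
  by_cases e : gam w a = 0
  · have := h.le a
    rw [e, mul_zero, norm_le_zero_iff] at this
    simp [this, e]
  · have e1 : (√(gam w a) : ℂ) * (√(gam w a) : ℂ) = gam w a := by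
      rw [← ofReal_mul, Real.mul_self_sqrt (h.adm.diss a)]
    have e2 : (gam w a : ℂ) ≠ 0 := ofReal_ne_zero.2 e
    rw [mul_right_comm, e1, Pi.sub_apply]
    field_simp

lemma norm_tm (h : Jmp A w w' δ) : ‖jt w w'‖ ≤ δ := by
  refine norm_diagonal_le h.δ0 fun a => ?_
  rw [norm_div, norm_real, Real.norm_of_nonneg (h.adm.diss a)]
  exact div_le_of_le_mul₀ (h.adm.diss a) h.δ0 (h.le a)

lemma Kt_eq (h : Jmp A w w' δ) : jK A w w' = Km A w - Km A w * jt w w' * jK A w w' := by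
  rw [jK0_eq, jK]
  conv_lhs => rw [h.adm.resolvent h.adm', jD_eq h]
  simp only [Matrix.mul_sub, Matrix.sub_mul, Matrix.mul_assoc]

lemma norm_Ktm (h : Jmp A w w' δ) : ‖Km A w * jt w w'‖ ≤ δ :=
  (norm_mul_le _ _).trans ((mul_le_mul h.adm.norm_K (norm_tm h) (norm_nonneg _) zero_le_one).trans
    (one_mul _).le)

lemma norm_Kt (h : Jmp A w w' δ) : ‖jK A w w'‖ ≤ 10 / 9 := by
  have h1 : ‖jK A w w'‖ ≤ 1 + 1 / 10 * ‖jK A w w'‖ := by
    conv_lhs => rw [Kt_eq h]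
    exact (norm_sub_le _ _).trans (add_le_add h.adm.norm_K ((norm_mul_le _ _).trans
      (mul_le_mul_of_nonneg_right ((norm_Ktm h).trans h.δ1) (norm_nonneg _))))
  linarith

lemma norm_tKt (h : Jmp A w w' δ) : ‖jt w w' * jK A w w'‖ ≤ 10 / 9 * δ :=
  (norm_mul_le _ _).trans ((mul_le_mul (norm_tm h) (norm_Kt h) (norm_nonneg _) h.δ0).trans
    (mul_comm _ _).le)

lemma norm_tKtt (h : Jmp A w w' δ) : ‖jt w w' * jK A w w' * jt w w'‖ ≤ 10 / 9 * δ * δ :=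
  (norm_mul_le _ _).trans (mul_le_mul (norm_tKt h) (norm_tm h) (norm_nonneg _)
    (by linarith [h.δ0]))

lemma norm_Tm (h : Jmp A w w' δ) : ‖jT A w w'‖ ≤ 10 / 9 * δ :=
  (norm_sub_le _ _).trans ((add_le_add (norm_tm h) (norm_tKtt h)).trans
    (by nlinarith [h.δ0, h.δ1]))

lemma norm_Tm_sq (h : Jmp A w w' δ) : ‖jT A w w'‖ ^ 2 ≤ 2 * δ ^ 2 := by
  nlinarith [norm_Tm h, norm_nonneg (jT A w w'), h.δ0]

lemma jdiff (h : Jmp A w w' δ) :
    Gm A w' - Gm A w = -(Gm A w * jS w * jT A w w' * (jS w * Gm A w)) := by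
  have h1 := h.adm.resolvent h.adm'
  have h2 := h.adm.resolvent' h.adm'
  rw [jD_eq h] at h1 h2
  have h3 : Gm A w' - Gm A w = -(Gm A w * (jS w * jt w w' * jS w) *
      (Gm A w - Gm A w' * (jS w * jt w w' * jS w) * Gm A w)) := by
    rw [← h2]
    conv_lhs => rw [h1]
    abel
  rw [h3, jT, jK]
  simp only [Matrix.mul_sub, Matrix.sub_mul, Matrix.mul_assoc]

lemma G_tr (h : Adm A w) : (Gm A w)ᵀ = Gm A w := by
  ext a b; exact h.G_sym b a

lemma nsq_sG (h : Adm A w) (y : ι → ℂ) :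
    nsq ((jS w * Gm A w) *ᵥ y) = (star y ⬝ᵥ Gm A w *ᵥ y).im := by
  rw [← h.G_ward, nsq, ← Matrix.mulVec_mulVec]
  refine sum_congr rfl fun a _ => ?_
  rw [jS, Matrix.mulVec_diagonal, norm_mul, mul_pow, norm_real,
    Real.norm_of_nonneg (Real.sqrt_nonneg _), Real.sq_sqrt (h.diss a)]

lemma dot_Gs (h : Adm A w) (x : ι → ℂ) (M : Matrix ι ι ℂ) (y : ι → ℂ) :
    x ⬝ᵥ (Gm A w * jS w * M * (jS w * Gm A w)) *ᵥ y =
      (jS w * Gm A w) *ᵥ x ⬝ᵥ M *ᵥ (jS w * Gm A w) *ᵥ y := by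
  rw [Matrix.mul_assoc, ← Matrix.mulVec_mulVec, Matrix.dotProduct_mulVec, ← Matrix.mulVec_transpose,
    Matrix.transpose_mul, G_tr h, jS, Matrix.diagonal_transpose, ← Matrix.mulVec_mulVec y]

lemma im_symm (h : Adm A w) (x : ι → ℂ) :
    star x ⬝ᵥ Gm A w *ᵥ x = x ⬝ᵥ Gm A w *ᵥ star x := by
  rw [Matrix.dotProduct_mulVec, ← Matrix.mulVec_transpose, G_tr h, dotProduct_comm]

lemma im_nonneg (h : Adm A w) (y : ι → ℂ) : 0 ≤ (star y ⬝ᵥ Gm A w *ᵥ y).im :=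
  nsq_sG h y ▸ nsq_nonneg _

lemma im_single (a : ι) :
    star (Pi.single a 1 : ι → ℂ) ⬝ᵥ Gm A w *ᵥ Pi.single a 1 = Gm A w a a := by simp

lemma im_diag (h : Adm A w) (a : ι) : 0 ≤ (Gm A w a a).im :=
  im_single (A := A) (w := w) a ▸ im_nonneg h _

lemma im_le {Q : Finset ι} {x : ι → ℂ} (hx : Supp x Q) :
    (star x ⬝ᵥ Gm A w *ᵥ x).im ≤ ‖cmp (Gm A w) Q‖ * nsq x := by
  rw [← form_cmp _ (fun a ha => by rw [Pi.star_apply, hx a ha, star_zero]) hx]
  refine (le_abs_self _).trans ((abs_im_le_norm _).trans (abs_le_of_sq_le_sq' ?_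
    (mul_nonneg (norm_nonneg _) (nsq_nonneg _))).2)
  refine (norm_form_sq_le _ _ _).trans (le_of_eq ?_)
  rw [nsq_star]; ring

/-- Hilbert-Schmidt norm -/
noncomputable def jhs (X : Matrix ι ι ℂ) : ℝ := √(nsq fun p : ι × ι => X p.1 p.2)

lemma hs_nonneg (X : Matrix ι ι ℂ) : 0 ≤ jhs X := Real.sqrt_nonneg _

lemma hs_sq (X : Matrix ι ι ℂ) : jhs X ^ 2 = ∑ a, ∑ b, ‖X a b‖ ^ 2 := by
  rw [jhs, Real.sq_sqrt (nsq_nonneg _), nsq, Fintype.sum_prod_type]

lemma hs_add (X Y : Matrix ι ι ℂ) : jhs (X + Y) ≤ jhs X + jhs Y :=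
  sqrt_nsq_add_le (fun p : ι × ι => X p.1 p.2) fun p => Y p.1 p.2

lemma hs_neg (X : Matrix ι ι ℂ) : jhs (-X) = jhs X := by simp [jhs, nsq]

lemma hs_sub (X Y : Matrix ι ι ℂ) : jhs (X - Y) ≤ jhs X + jhs Y := by
  rw [sub_eq_add_neg, ← hs_neg Y]; exact hs_add _ _

lemma hs_tr (X : Matrix ι ι ℂ) : jhs Xᵀ = jhs X := by
  rw [← sq_eq_sq₀ (hs_nonneg _) (hs_nonneg _), hs_sq, hs_sq, sum_comm]; rfl

lemma hs_left (M X : Matrix ι ι ℂ) : jhs (M * X) ≤ ‖M‖ * jhs X := by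
  refine (abs_le_of_sq_le_sq' ?_ (mul_nonneg (norm_nonneg _) (hs_nonneg _))).2
  rw [mul_pow, hs_sq, hs_sq, sum_comm, sum_comm (f := fun a b => ‖X a b‖ ^ 2), mul_sum]
  exact sum_le_sum fun b _ => nsq_mulVec_le M fun a => X a b

lemma hs_right (X M : Matrix ι ι ℂ) : jhs (X * M) ≤ ‖M‖ * jhs X := by
  rw [← hs_tr, Matrix.transpose_mul, ← hs_tr X, ← norm_transpose' M]
  exact hs_left _ _

/-- commutator with a multiplication operator -/
noncomputable def jcm (f : ι → ℝ) (X : Matrix ι ι ℂ) : Matrix ι ι ℂ :=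
  Matrix.diagonal (fun a => (f a : ℂ)) * X - X * Matrix.diagonal fun a => (f a : ℂ)

lemma En_eq (X : Matrix ι ι ℂ) (f : ι → ℝ) : En X f = 1 / 2 * jhs (jcm f X) ^ 2 := by
  rw [hs_sq, En]
  congr 1
  refine sum_congr rfl fun a _ => sum_congr rfl fun b _ => ?_
  have : jcm f X a b = X a b * ((f a - f b : ℝ) : ℂ) := by
    simp only [jcm, Matrix.sub_apply, Matrix.diagonal_mul, Matrix.mul_diagonal]
    push_cast; ring
  rw [this, norm_mul, mul_pow, norm_real, Real.norm_eq_abs, sq_abs]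

lemma cm_eq (h : Jmp A w w' δ) (f : ι → ℝ) : jcm f (jK A w w') = jcm f (Km A w) -
    (jcm f (Km A w) * (jt w w' * jK A w w') + Km A w * jt w w' * jcm f (jK A w w')) := by
  have c : jt w w' * Matrix.diagonal (fun a => (f a : ℂ)) =
      Matrix.diagonal (fun a => (f a : ℂ)) * jt w w' := by
    simp only [jt, Matrix.diagonal_mul_diagonal, mul_comm]
  conv_lhs => rw [Kt_eq h]
  simp only [jcm, Matrix.mul_sub, Matrix.sub_mul, Matrix.mul_assoc]
  rw [← Matrix.mul_assoc (jt w w') (Matrix.diagonal _), c, Matrix.mul_assoc]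
  abel

lemma hs_err (h : Jmp A w w' δ) (f : ι → ℝ) :
    jhs (jcm f (Km A w) * (jt w w' * jK A w w') + Km A w * jt w w' * jcm f (jK A w w')) ≤
      10 / 9 * δ * jhs (jcm f (Km A w)) + δ * jhs (jcm f (jK A w w')) :=
  (hs_add _ _).trans (add_le_add
    ((hs_right _ _).trans (mul_le_mul_of_nonneg_right (norm_tKt h) (hs_nonneg _)))
    ((hs_left _ _).trans (mul_le_mul_of_nonneg_right (norm_Ktm h) (hs_nonneg _))))

lemma Kt_sq (h : Jmp A w w' δ) (a b : ι) :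
    ‖jK A w w' a b‖ ^ 2 = gam w a * gam w b * ‖Gm A w' a b‖ ^ 2 := by
  simp only [jK, jS, Matrix.mul_diagonal, Matrix.diagonal_mul, norm_mul, mul_pow, norm_real,
    Real.norm_eq_abs, sq_abs, Real.sq_sqrt (h.adm.diss _)]
  ring

lemma K'_sq (h : Jmp A w w' δ) (a b : ι) :
    (1 - δ) ^ 2 * ‖jK A w w' a b‖ ^ 2 ≤ ‖Km A w' a b‖ ^ 2 ∧
      ‖Km A w' a b‖ ^ 2 ≤ (1 + δ) ^ 2 * ‖jK A w w' a b‖ ^ 2 := by
  have h1 : 0 ≤ 1 - δ := by linarith [h.δ1]
  rw [Kt_sq h, h.adm'.K_sq, ← mul_assoc, ← mul_assoc, ← mul_assoc, ← mul_assoc]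
  refine ⟨mul_le_mul_of_nonneg_right ?_ (sq_nonneg _), mul_le_mul_of_nonneg_right ?_ (sq_nonneg _)⟩
  · exact le_of_eq_of_le (by ring) (mul_le_mul (h.gam_le a).1 (h.gam_le b).1
      (mul_nonneg h1 (h.adm.diss b)) (h.adm'.diss a))
  · exact le_of_le_of_eq (mul_le_mul (h.gam_le a).2 (h.gam_le b).2 (h.adm'.diss b)
      (mul_nonneg (by linarith [h.δ0]) (h.adm.diss a))) (by ring)

lemma En_K' (h : Jmp A w w' δ) (f : ι → ℝ) :
    (1 - δ) ^ 2 * En (jK A w w') f ≤ En (Km A w') f ∧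
      En (Km A w') f ≤ (1 + δ) ^ 2 * En (jK A w w') f := by
  simp only [En, mul_left_comm _ (1 / 2 : ℝ)]
  constructor <;> refine mul_le_mul_of_nonneg_left ?_ (by norm_num) <;>
    simp only [mul_sum, ← mul_assoc] <;>
    refine sum_le_sum fun a _ => sum_le_sum fun b _ => mul_le_mul_of_nonneg_right ?_ (sq_nonneg _)
  exacts [(K'_sq h a b).1, (K'_sq h a b).2]

lemma cmp_add (X Y : Matrix ι ι ℂ) (Q : Finset ι) : cmp (X + Y) Q = cmp X Q + cmp Y Q := by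
  ext a b
  simp only [cmp, Matrix.add_apply]
  split_ifs <;> simp

lemma pow_four_le (x y : ℝ) : (x + y) ^ 4 ≤ 1331 / 1000 * x ^ 4 + 1331 * y ^ 4 := by
  have h1 : (x + y) ^ 2 ≤ 11 / 10 * x ^ 2 + 11 * y ^ 2 := by nlinarith [sq_nonneg (x - 10 * y)]
  have h2 : (x + y) ^ 4 ≤ (11 / 10 * x ^ 2 + 11 * y ^ 2) ^ 2 := by
    rw [show (x + y) ^ 4 = ((x + y) ^ 2) ^ 2 by ring]
    exact pow_le_pow_left₀ (sq_nonneg _) h1 2
  nlinarith [sq_nonneg (x ^ 2 - 100 * y ^ 2)]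

end Jp

open Jp

lemma Jmp.En_le (h : Jmp A w w' δ) (f : ι → ℝ) : En (Km A w') f ≤ (1 + 10 * δ) * En (Km A w) f := by
  have h0 := h.δ0
  have h1 := h.δ1
  have e := (congrArg jhs (cm_eq h f)).le.trans ((hs_sub _ _).trans (add_le_add le_rfl (hs_err h f)))
  have a0 := hs_nonneg (jcm f (Km A w))
  have b0 := hs_nonneg (jcm f (jK A w w'))
  refine (En_K' h f).2.trans ?_
  rw [Jp.En_eq, Jp.En_eq]
  generalize jhs (jcm f (Km A w)) = a at *
  generalize jhs (jcm f (jK A w w')) = b at *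
  have k : (1 + δ) * b ≤ (1 + 4 * δ) * a := by
    refine le_of_mul_le_mul_left ?_ (show 0 < 1 - δ by linarith)
    have : (1 + δ) * ((1 - δ) * b) ≤ (1 + δ) * ((1 + 10 / 9 * δ) * a) :=
      mul_le_mul_of_nonneg_left (by linarith) (by linarith)
    have : 0 ≤ a * (δ * (1 / 10 - δ)) := mul_nonneg a0 (mul_nonneg h0 (by linarith))
    nlinarith [mul_nonneg a0 h0]
  have k2 := pow_le_pow_left₀ (by positivity) k 2
  have : 0 ≤ a ^ 2 * (δ * (1 / 10 - δ)) := mul_nonneg (sq_nonneg _) (mul_nonneg h0 (by linarith))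
  nlinarith [mul_nonneg (sq_nonneg a) h0]
lemma Jmp.le_En (h : Jmp A w w' δ) (f : ι → ℝ) : (1 - 10 * δ) * En (Km A w) f ≤ En (Km A w') f := by
  have h0 := h.δ0
  have h1 := h.δ1
  have e := (congrArg jhs (sub_eq_iff_eq_add.1 (cm_eq h f).symm)).le.trans
    ((hs_add _ _).trans (add_le_add le_rfl (hs_err h f)))
  have a0 := hs_nonneg (jcm f (Km A w))
  have b0 := hs_nonneg (jcm f (jK A w w'))
  refine le_trans ?_ (En_K' h f).1
  rw [Jp.En_eq, Jp.En_eq]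
  generalize jhs (jcm f (Km A w)) = a at *
  generalize jhs (jcm f (jK A w w')) = b at *
  have k : (1 - 4 * δ) * a ≤ (1 - δ) * b := by
    refine le_of_mul_le_mul_left ?_ (show 0 < 1 + δ by linarith)
    have : (1 - δ) * ((1 - 10 / 9 * δ) * a) ≤ (1 - δ) * ((1 + δ) * b) :=
      mul_le_mul_of_nonneg_left (by linarith) (by linarith)
    nlinarith [mul_nonneg a0 h0, mul_nonneg a0 (sq_nonneg δ)]
  have k2 := pow_le_pow_left₀ (mul_nonneg (by linarith) a0) k 2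
  nlinarith [mul_nonneg (sq_nonneg a) h0, mul_nonneg (sq_nonneg a) (sq_nonneg δ)]
lemma Jmp.form (h : Jmp A w w' δ) (x y : ι → ℂ) :
    ‖x ⬝ᵥ (Gm A w' - Gm A w) *ᵥ y‖ ^ 2 ≤
      2 * δ ^ 2 * ((x ⬝ᵥ Gm A w *ᵥ star x).im * (star y ⬝ᵥ Gm A w *ᵥ y).im) := by
  rw [jdiff h, Matrix.neg_mulVec, dotProduct_neg, norm_neg, dot_Gs h.adm, ← im_symm h.adm,
    ← nsq_sG h.adm, ← nsq_sG h.adm]
  exact (norm_form_sq_le _ _ _).trans (mul_le_mul_of_nonneg_right (norm_Tm_sq h)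
    (mul_nonneg (nsq_nonneg _) (nsq_nonneg _)))
lemma Jmp.entry (h : Jmp A w w' δ) (a b : ι) :
    ‖Gm A w' a b - Gm A w a b‖ ^ 2 ≤ 2 * δ ^ 2 * ((Gm A w a a).im * (Gm A w b b).im) := by
  simpa using h.form (Pi.single a 1) (Pi.single b 1)
lemma Jmp.row (h : Jmp A w w' δ) (a : ι) :
    ∑ b, gam w b * ‖Gm A w' a b - Gm A w a b‖ ^ 2 ≤ 2 * δ ^ 2 * (Gm A w a a).im := by
  have e : ∑ b, gam w b * ‖Gm A w' a b - Gm A w a b‖ ^ 2 =
      nsq ((jS w * (Gm A w' - Gm A w)) *ᵥ Pi.single a 1) := by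
    refine sum_congr rfl fun b _ => ?_
    rw [h.adm.G_sym a b, h.adm'.G_sym a b]
    simp [jS, mul_pow, Real.sq_sqrt (h.adm.diss b)]
  have e2 : jS w * (Gm A w' - Gm A w) = -(Km A w * jT A w w' * (jS w * Gm A w)) := by
    rw [jdiff h, jK0_eq]
    simp only [Matrix.mul_neg, Matrix.mul_assoc]
  rw [e, e2, Matrix.neg_mulVec, nsq_neg, ← Matrix.mulVec_mulVec, ← im_single, ← nsq_sG h.adm]
  refine (nsq_mulVec_le _ _).trans (mul_le_mul_of_nonneg_right ?_ (nsq_nonneg _))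
  refine le_trans (pow_le_pow_left₀ (norm_nonneg _) ((norm_mul_le _ _).trans ?_) 2) (norm_Tm_sq h)
  exact mul_le_of_le_one_left (norm_nonneg _) h.adm.norm_K
lemma Jmp.second (h : Jmp A w w' δ) (a : ι) :
    ‖Gm A w' a a - Gm A w a a + ∑ y, Gm A w a y ^ 2 * (w' y - w y)‖ ≤
      2 * δ ^ 2 * (Gm A w a a).im := by
  have e1 : ∑ y, Gm A w a y ^ 2 * (w' y - w y) =
      (Gm A w * Matrix.diagonal (w' - w) * Gm A w) a a := by
    rw [Matrix.mul_apply]
    refine sum_congr rfl fun y _ => ?_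
    rw [Matrix.mul_diagonal, h.adm.G_sym y a, Pi.sub_apply]
    ring
  have e2 : Gm A w' - Gm A w + Gm A w * Matrix.diagonal (w' - w) * Gm A w =
      Gm A w * jS w * (jt w w' * jK A w w' * jt w w') * (jS w * Gm A w) := by
    rw [jdiff h, jD_eq h, jT]
    simp only [Matrix.mul_sub, Matrix.sub_mul, Matrix.mul_assoc]
    abel
  have e3 := dot_Gs h.adm (Pi.single a 1) (jt w w' * jK A w w' * jt w w') (Pi.single a 1)
  rw [← e2] at e3
  simp only [Matrix.mulVec_single_one, single_one_dotProduct, Matrix.col_apply, Matrix.add_apply,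
    Matrix.sub_apply] at e3
  rw [e1, e3]
  refine (abs_le_of_sq_le_sq' ((norm_form_sq_le _ _ _).trans ?_)
    (mul_nonneg (by positivity) (im_diag h.adm a))).2
  rw [← Matrix.mulVec_single_one, nsq_sG h.adm, im_single, mul_pow, ← sq]
  refine mul_le_mul_of_nonneg_right (pow_le_pow_left₀ (norm_nonneg _) ((norm_tKtt h).trans ?_) 2)
    (sq_nonneg _)
  nlinarith [sq_nonneg δ]
lemma Jmp.block (h : Jmp A w w' δ) (Q : Finset ι) :
    ‖cmp (Gm A w') Q‖ ≤ (1 + 2 * δ) * ‖cmp (Gm A w) Q‖ := by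
  have h1 : ‖cmp (Gm A w' - Gm A w) Q‖ ≤ 2 * δ * ‖cmp (Gm A w) Q‖ := by
    refine norm_cmp_le_of_form (mul_nonneg (by linarith [h.δ0]) (norm_nonneg _))
      fun x y hx hy => (h.form x y).trans ?_
    rw [← im_symm h.adm]
    have := mul_le_mul (im_le (A := A) (w := w) hx) (im_le (A := A) (w := w) hy)
      (im_nonneg h.adm y) (mul_nonneg (norm_nonneg _) (nsq_nonneg _))
    have h2 := mul_nonneg (sq_nonneg δ) (mul_nonneg (im_nonneg h.adm x) (im_nonneg h.adm y))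
    nlinarith [mul_le_mul_of_nonneg_left this (sq_nonneg δ)]
  rw [← add_sub_cancel (Gm A w) (Gm A w'), cmp_add]
  linarith [norm_add_le (cmp (Gm A w) Q) (cmp (Gm A w' - Gm A w) Q)]
lemma Jmp.dwell (h : Jmp A w w' δ) (Q : Finset ι) (a : ι) :
    ∑ x ∈ Q, ‖Gm A w' x a‖ ^ 2 ≤ 2 * ∑ x ∈ Q, ‖Gm A w x a‖ ^ 2 +
      4 * δ ^ 2 * ‖cmp (Gm A w) Q‖ * (Gm A w a a).im := by
  have h0 := im_diag h.adm a
  have h1 : nsq (fun x => if x ∈ Q then Gm A w' x a - Gm A w x a else 0) ≤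
      2 * δ ^ 2 * ‖cmp (Gm A w) Q‖ * (Gm A w a a).im := by
    refine nsq_le_of_dual (by positivity) fun y => ?_
    have hy : Supp (fun x => if x ∈ Q then y x else 0) Q := fun x hx => if_neg hx
    have h2 := h.form (fun x => if x ∈ Q then y x else 0) (Pi.single a 1)
    rw [← im_symm h.adm, im_single] at h2
    have e : (y ⬝ᵥ fun x => if x ∈ Q then Gm A w' x a - Gm A w x a else 0) =
        (fun x => if x ∈ Q then y x else 0) ⬝ᵥ (Gm A w' - Gm A w) *ᵥ Pi.single a 1 := by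
      simp [dotProduct]
    have h3 : nsq (fun x => if x ∈ Q then y x else 0) ≤ nsq y :=
      sum_le_sum fun x _ => by dsimp only; split_ifs <;> simp
    have h4 := (im_le (A := A) (w := w) hy).trans (mul_le_mul_of_nonneg_left h3 (norm_nonneg _))
    rw [e]
    refine h2.trans (le_of_le_of_eq (mul_le_mul_of_nonneg_left
      (mul_le_mul_of_nonneg_right h4 h0) (by positivity)) (by ring))
  have e : nsq (fun x => if x ∈ Q then Gm A w' x a - Gm A w x a else 0) =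
      ∑ x ∈ Q, ‖Gm A w' x a - Gm A w x a‖ ^ 2 := by
    simp [nsq, apply_ite norm]
  have h2 : ∑ x ∈ Q, ‖Gm A w' x a‖ ^ 2 ≤
      ∑ x ∈ Q, (2 * ‖Gm A w x a‖ ^ 2 + 2 * ‖Gm A w' x a - Gm A w x a‖ ^ 2) :=
    sum_le_sum fun x _ => by
      have := norm_add_le (Gm A w x a) (Gm A w' x a - Gm A w x a)
      rw [add_sub_cancel] at this
      nlinarith [sq_nonneg (‖Gm A w x a‖ - ‖Gm A w' x a - Gm A w x a‖), norm_nonneg (Gm A w' x a)]
  rw [sum_add_distrib, ← mul_sum, ← mul_sum, ← e] at h2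
  linarith
/-- Schur square on ports with `γ ≥ g`, `Im G_aa ≤ c` -/
lemma Jmp.had (h : Jmp A w w' δ) {Q : Finset ι} {g c : ℝ} (hg : 0 < g) (hc : 0 ≤ c)
    (hQ : ∀ x ∈ Q, g ≤ gam w x ∧ (Gm A w x x).im ≤ c) :
    ‖cmp (Matrix.hadamard (Gm A w') (Gm A w')) Q‖ ≤
      ‖cmp (Matrix.hadamard (Gm A w) (Gm A w)) Q‖ + 4 * δ * c / g := by
  have h0 := h.δ0
  have h1 := h.δ1
  set P : Matrix ι ι ℂ := Matrix.diagonal fun x => if x ∈ Q then 1 else 0 with hP
  have e : cmp (Matrix.hadamard (Gm A w') (Gm A w')) Q =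
      cmp (Matrix.hadamard (Gm A w) (Gm A w)) Q +
        Matrix.hadamard (cmp (Gm A w') Q + cmp (Gm A w) Q)
          (-(P * (Gm A w * jS w * jT A w w')) * (P * (Gm A w * jS w))ᵀ) := by
    have e1 : -(P * (Gm A w * jS w * jT A w w')) * (P * (Gm A w * jS w))ᵀ =
        P * (Gm A w' - Gm A w) * P := by
      rw [jdiff h, Matrix.transpose_mul, Matrix.transpose_mul, G_tr h.adm, hP, jS,
        Matrix.diagonal_transpose, Matrix.diagonal_transpose]
      simp only [Matrix.mul_neg, Matrix.neg_mul, Matrix.mul_assoc]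
    rw [e1]
    ext a b
    simp only [cmp, Matrix.hadamard_apply, Matrix.add_apply, hP, Matrix.mul_diagonal,
      Matrix.diagonal_mul, Matrix.sub_apply]
    by_cases ha : a ∈ Q <;> by_cases hb : b ∈ Q <;> simp [ha, hb]
    ring
  have r : ∀ (M : Matrix ι ι ℂ) x, ∑ k, ‖(P * (Gm A w * jS w * M)) x k‖ ^ 2 ≤ (‖M‖ * √c) ^ 2 := by
    intro M x
    by_cases hx : x ∈ Q
    · have e1 : ∑ k, ‖(P * (Gm A w * jS w * M)) x k‖ ^ 2 =
          nsq (Mᵀ *ᵥ (jS w * Gm A w) *ᵥ Pi.single x 1) := by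
        have e2 : Mᵀ * (jS w * Gm A w) = (Gm A w * jS w * M)ᵀ := by
          rw [Matrix.transpose_mul, Matrix.transpose_mul, G_tr h.adm, jS, Matrix.diagonal_transpose]
        rw [Matrix.mulVec_mulVec, e2]
        simp [nsq, hP, hx, -Matrix.transpose_mul]
      rw [e1, mul_pow, Real.sq_sqrt hc, ← norm_transpose' M]
      refine (nsq_mulVec_le _ _).trans (mul_le_mul_of_nonneg_left ?_ (sq_nonneg _))
      rw [nsq_sG h.adm, im_single]
      exact (hQ x hx).2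
    · simp only [hP, Matrix.diagonal_mul, if_neg hx, zero_mul, norm_zero]
      rw [zero_pow two_ne_zero, sum_const_zero]
      exact sq_nonneg _
  have n1 := h.adm.norm_cmp hg fun x hx => (hQ x hx).1
  have n2 : ‖cmp (Gm A w') Q + cmp (Gm A w) Q‖ ≤ 3 / g := by
    have := h.block Q
    have h3 := norm_nonneg (cmp (Gm A w) Q)
    rw [show 3 / g = 3 * (1 / g) by ring]
    nlinarith [norm_add_le (cmp (Gm A w') Q) (cmp (Gm A w) Q)]
  have n3 := norm_hadamard_le (cmp (Gm A w') Q + cmp (Gm A w) Q)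
    (-(P * (Gm A w * jS w * jT A w w'))) (P * (Gm A w * jS w)) (a := 10 / 9 * δ * √c) (b := √c)
    (by positivity) (Real.sqrt_nonneg c)
    (fun x => by
      simp only [Matrix.neg_apply, norm_neg]
      exact (r _ x).trans (pow_le_pow_left₀ (by positivity)
        (mul_le_mul_of_nonneg_right (norm_Tm h) (Real.sqrt_nonneg c)) 2))
    (fun x => by
      have := r 1 x
      rw [Matrix.mul_one] at this
      exact this.trans (pow_le_pow_left₀ (by positivity)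
        (mul_le_of_le_one_left (Real.sqrt_nonneg c) (norm_diagonal_le zero_le_one fun _ => by
          simp)) 2))
  rw [mul_assoc ‖_‖, mul_assoc _ √c, Real.mul_self_sqrt hc] at n3
  rw [e]
  refine (norm_add_le _ _).trans (add_le_add le_rfl (n3.trans
    ((mul_le_mul_of_nonneg_right n2 (by positivity)).trans ?_)))
  rw [div_mul_eq_mul_div]
  exact div_le_div_of_nonneg_right (by nlinarith [mul_nonneg h0 hc]) hg.le
/-- fourth moments of a row on ports with `γ ≤ g'`, `Im G ≤ c`: `K̃ = K + X`, `|X_ab|² ≤ 2δ²g'²c²`,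
`∑_b |X_ab|² ≤ 2δ² g' c`, `|a+b|⁴ ≤ 1.1³|a|⁴ + 11³|b|⁴`, `(1+δ)⁴ ≤ 1.4641` -/
lemma Jmp.four (h : Jmp A w w' δ) {Q : Finset ι} {g' c : ℝ} (hc : 0 ≤ c) {a : ι}
    (ha : gam w a ≤ g' ∧ (Gm A w a a).im ≤ c) (hQ : ∀ x ∈ Q, gam w x ≤ g' ∧ (Gm A w x x).im ≤ c) :
    ∑ b ∈ Q, ‖Km A w' a b‖ ^ 4 ≤
      2 * ∑ b ∈ Q, ‖Km A w a b‖ ^ 4 + 10 ^ 4 * δ ^ 4 * g' ^ 3 * c ^ 3 := by
  have h0 := h.δ0
  have h1 := h.δ1
  have ga := h.adm.diss a
  have hg : 0 ≤ g' := ga.trans ha.1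
  set u : ι → ℝ := fun b => gam w b * ‖Gm A w' a b - Gm A w a b‖ ^ 2 with hu
  have u0 : ∀ b, 0 ≤ u b := fun b => mul_nonneg (h.adm.diss b) (sq_nonneg _)
  have k1 : ∀ b, ‖Km A w' a b‖ ^ 4 ≤ 2 * ‖Km A w a b‖ ^ 4 + 2000 * (gam w a * u b) ^ 2 := by
    intro b
    have e1 : ‖Km A w' a b‖ ^ 2 ≤ 121 / 100 * (gam w a * gam w b * ‖Gm A w' a b‖ ^ 2) := by
      rw [← Kt_sq h]
      exact (K'_sq h a b).2.trans (mul_le_mul_of_nonneg_right (by nlinarith) (sq_nonneg _))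
    have e2 : ‖Gm A w' a b‖ ^ 4 ≤
        1331 / 1000 * ‖Gm A w a b‖ ^ 4 + 1331 * ‖Gm A w' a b - Gm A w a b‖ ^ 4 := by
      have := norm_add_le (Gm A w a b) (Gm A w' a b - Gm A w a b)
      rw [add_sub_cancel] at this
      exact (pow_le_pow_left₀ (norm_nonneg _) this 4).trans (pow_four_le _ _)
    have e3 := pow_le_pow_left₀ (sq_nonneg _) e1 2
    have e4 := mul_le_mul_of_nonneg_left e2 (sq_nonneg (gam w a * gam w b))
    have e5 : ‖Km A w a b‖ ^ 4 = (gam w a * gam w b) ^ 2 * ‖Gm A w a b‖ ^ 4 := by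
      rw [show ‖Km A w a b‖ ^ 4 = (‖Km A w a b‖ ^ 2) ^ 2 by ring, h.adm.K_sq]; ring
    have e6 : (gam w a * u b) ^ 2 =
        (gam w a * gam w b) ^ 2 * ‖Gm A w' a b - Gm A w a b‖ ^ 4 := by simp only [hu]; ring
    rw [e5, e6]
    have p1 : 0 ≤ (gam w a * gam w b) ^ 2 * ‖Gm A w a b‖ ^ 4 := by positivity
    have p2 : 0 ≤ (gam w a * gam w b) ^ 2 * ‖Gm A w' a b - Gm A w a b‖ ^ 4 := by positivity
    nlinarith
  have k2 : ∀ b ∈ Q, u b ≤ g' * (2 * δ ^ 2 * (c * c)) := fun b hb =>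
    mul_le_mul (hQ b hb).1 ((h.entry a b).trans (mul_le_mul_of_nonneg_left
      (mul_le_mul ha.2 (hQ b hb).2 (im_diag h.adm b) hc) (by positivity))) (sq_nonneg _) hg
  have k3 : ∑ b ∈ Q, u b ≤ 2 * δ ^ 2 * c :=
    (sum_le_sum_of_subset_of_nonneg (subset_univ Q) fun b _ _ => u0 b).trans
      ((h.row a).trans (mul_le_mul_of_nonneg_left ha.2 (by positivity)))
  have k4 : ∑ b ∈ Q, (gam w a * u b) ^ 2 ≤
      g' ^ 2 * (g' * (2 * δ ^ 2 * (c * c))) * (2 * δ ^ 2 * c) := by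
    refine le_trans (sum_le_sum fun b hb => ?_)
      ((mul_sum _ _ _).symm.le.trans (mul_le_mul_of_nonneg_left k3 (by positivity)))
    rw [mul_pow, sq (u b), ← mul_assoc]
    exact mul_le_mul_of_nonneg_right (mul_le_mul (pow_le_pow_left₀ ga ha.1 2) (k2 b hb) (u0 b)
      (sq_nonneg _)) (u0 b)
  refine (sum_le_sum fun b _ => k1 b).trans ?_
  rw [sum_add_distrib, ← mul_sum, ← mul_sum]
  have p : 0 ≤ δ ^ 4 * g' ^ 3 * c ^ 3 := by positivity
  nlinarith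

end Crest.Agent.N334.AC
end

-- ▼ part N334/AC/L/Newton

/-! # S0520 part L: the linear system of the retuning step (leaf).
`N(X) = max_x γ_x⁻¹ ∑_{y∈O} |X x y| γ_y` is submultiplicative. `solve_early`:
`k x y = #{p : x,y ∈ tball p L}/vol L ∈ [1 - d·tdist/(L+1), 1]` (`overlap_ge`), `At = A ∘ k` is an average
of compressions (`norm_sum_local_le`: `‖At‖ ≤ b`), has range `≤ 2L`, `N(A - At) ≤ 2 d e'`,
`N(At^n) ≤ 2 √(vol (2nL)) b^n ≤ 1/4`, `N(A^n - At^n) ≤ n · 2de' · 2 ≤ 1/4`;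
`(1-A)⁻¹ = (1 + … + A^{n-1})(1 - A^n)⁻¹`. -/

set_option autoImplicit false

open Finset Complex
open scoped Matrix.Norms.L2Operator Matrix

namespace Crest.Agent.N334.AC

namespace Nw

variable {ι : Type} [Fintype ι] [DecidableEq ι] {γ : ι → ℝ}

/-- weighted row-sum bound -/
def NB (γ : ι → ℝ) (Y : Matrix ι ι ℂ) (c : ℝ) : Prop := ∀ x, ∑ y, ‖Y x y‖ * γ y ≤ c * γ x

omit [DecidableEq ι] in
lemma NB.mono (hγ : ∀ x, 0 < γ x) {Y : Matrix ι ι ℂ} {c c' : ℝ} (h : NB γ Y c) (hc : c ≤ c') :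
    NB γ Y c' := fun x => (h x).trans (mul_le_mul_of_nonneg_right hc (hγ x).le)

omit [DecidableEq ι] in
lemma NB.vec {Y : Matrix ι ι ℂ} {c b : ℝ} (h : NB γ Y c) (hb : 0 ≤ b) {v : ι → ℂ}
    (hv : ∀ x, ‖v x‖ ≤ b * γ x) (x : ι) : ‖(Y *ᵥ v) x‖ ≤ c * b * γ x := by
  calc ‖(Y *ᵥ v) x‖ ≤ ∑ y, ‖Y x y * v y‖ := norm_sum_le _ _
    _ ≤ ∑ y, b * (‖Y x y‖ * γ y) := sum_le_sum fun y _ => by
        rw [norm_mul]
        nlinarith [mul_le_mul_of_nonneg_left (hv y) (norm_nonneg (Y x y))]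
    _ ≤ c * b * γ x := by
        rw [← mul_sum]
        nlinarith [mul_le_mul_of_nonneg_left (h x) hb]

omit [DecidableEq ι] in
lemma NB.add (hγ : ∀ x, 0 < γ x) {Y Z : Matrix ι ι ℂ} {c c' : ℝ} (h : NB γ Y c) (h' : NB γ Z c') :
    NB γ (Y + Z) (c + c') := fun x => by
  calc ∑ y, ‖(Y + Z) x y‖ * γ y ≤ ∑ y, (‖Y x y‖ * γ y + ‖Z x y‖ * γ y) :=
        sum_le_sum fun y _ => by
          rw [← add_mul]
          exact mul_le_mul_of_nonneg_right (norm_add_le _ _) (hγ y).le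
    _ ≤ (c + c') * γ x := by rw [sum_add_distrib]; linarith [h x, h' x]

omit [DecidableEq ι] in
lemma NB.mul (hγ : ∀ x, 0 < γ x) {Y Z : Matrix ι ι ℂ} {c c' : ℝ} (h : NB γ Y c) (h' : NB γ Z c')
    (hc' : 0 ≤ c') : NB γ (Y * Z) (c * c') := fun x => by
  calc ∑ z, ‖(Y * Z) x z‖ * γ z ≤ ∑ z, ∑ y, ‖Y x y‖ * (‖Z y z‖ * γ z) :=
        sum_le_sum fun z _ => by
          rw [Matrix.mul_apply]
          refine (mul_le_mul_of_nonneg_right (norm_sum_le _ _) (hγ z).le).trans ?_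
          rw [sum_mul]
          exact le_of_eq (sum_congr rfl fun y _ => by rw [norm_mul, mul_assoc])
    _ = ∑ y, ‖Y x y‖ * ∑ z, ‖Z y z‖ * γ z := by
        rw [sum_comm]; exact sum_congr rfl fun y _ => (mul_sum _ _ _).symm
    _ ≤ ∑ y, c' * (‖Y x y‖ * γ y) := sum_le_sum fun y _ => by
        nlinarith [mul_le_mul_of_nonneg_left (h' y) (norm_nonneg (Y x y))]
    _ ≤ c * c' * γ x := by
        rw [← mul_sum]
        nlinarith [mul_le_mul_of_nonneg_left (h x) hc']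

lemma NB.one : NB γ (1 : Matrix ι ι ℂ) 1 := fun x => by
  rw [sum_eq_single x (fun y _ hy => by simp [Matrix.one_apply_ne hy.symm]) (by simp)]
  simp

omit [DecidableEq ι] in
lemma NB.zero : NB γ (0 : Matrix ι ι ℂ) 0 := fun x => by simp

lemma NB.pow (hγ : ∀ x, 0 < γ x) {Y : Matrix ι ι ℂ} {c : ℝ} (h : NB γ Y c) (hc : 0 ≤ c) (k : ℕ) :
    NB γ (Y ^ k) (c ^ k) := by
  induction k with
  | zero => simpa using NB.one
  | succ k ih => rw [pow_succ, pow_succ]; exact ih.mul hγ h hc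

lemma NB.geom (hγ : ∀ x, 0 < γ x) {Y : Matrix ι ι ℂ} {c : ℝ} (k : ℕ)
    (h : ∀ i < k, NB γ (Y ^ i) c) : NB γ (∑ i ∈ range k, Y ^ i) (k * c) := by
  induction k with
  | zero => simpa using NB.zero
  | succ k ih =>
    rw [sum_range_succ, Nat.cast_succ, add_mul, one_mul]
    exact (ih fun i hi => h i (by omega)).add hγ (h k (by omega))

lemma NB.pow_sub (hγ : ∀ x, 0 < γ x) {Y Z : Matrix ι ι ℂ} {a c : ℝ} (hY : NB γ Y a) (hZ : NB γ Z a)
    (h : NB γ (Y - Z) c) (ha : 1 ≤ a) (hc : 0 ≤ c) (k : ℕ) :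
    NB γ (Y ^ k - Z ^ k) (k * c * a ^ k) := by
  have ha0 : 0 ≤ a := by linarith
  induction k with
  | zero => simpa using NB.zero
  | succ k ih =>
    have e : Y ^ (k + 1) - Z ^ (k + 1) = Y * (Y ^ k - Z ^ k) + (Y - Z) * Z ^ k := by
      rw [pow_succ', pow_succ', mul_sub, sub_mul]; abel
    rw [e]
    refine ((hY.mul hγ ih (by positivity)).add hγ
      (h.mul hγ (hZ.pow hγ ha0 k) (by positivity))).mono hγ ?_
    have : c * a ^ k * 1 ≤ c * a ^ k * a := mul_le_mul_of_nonneg_left ha (by positivity)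
    rw [pow_succ, Nat.cast_succ]
    nlinarith

omit [DecidableEq ι] in
lemma apriori (hγ : ∀ x, 0 < γ x) {Y : Matrix ι ι ℂ} {q b : ℝ} (h : NB γ Y q) (hq : q < 1)
    {Δ β : ι → ℂ} (he : Δ - Y *ᵥ Δ = β) (hβ : ∀ x, ‖β x‖ ≤ b * γ x) (x : ι) :
    ‖Δ x‖ ≤ b / (1 - q) * γ x := by
  obtain ⟨x0, -, h0⟩ := exists_max_image univ (fun x => ‖Δ x‖ / γ x) ⟨x, mem_univ x⟩
  set m := ‖Δ x0‖ / γ x0 with hm
  have hm0 : 0 ≤ m := div_nonneg (norm_nonneg _) (hγ x0).le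
  have h1 : ∀ y, ‖Δ y‖ ≤ m * γ y := fun y => (div_le_iff₀ (hγ y)).1 (h0 y (mem_univ y))
  have h2 := h.vec hm0 h1 x0
  have h3 : Δ x0 = β x0 + (Y *ᵥ Δ) x0 := by rw [← he]; simp
  have h4 : ‖Δ x0‖ = m * γ x0 := by rw [hm, div_mul_cancel₀ _ (hγ x0).ne']
  have h5 := norm_add_le (β x0) ((Y *ᵥ Δ) x0)
  rw [← h3, h4] at h5
  have h6 : m * (1 - q) ≤ b := by
    refine le_of_mul_le_mul_right ?_ (hγ x0)
    linarith [hβ x0]
  exact (h1 x).trans (mul_le_mul_of_nonneg_right ((le_div_iff₀ (by linarith)).2 h6) (hγ x).le)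

lemma solve (hγ : ∀ x, 0 < γ x) {Y : Matrix ι ι ℂ} {q b : ℝ} (h : NB γ Y q) (hq : q < 1)
    {β : ι → ℂ} (hβ : ∀ x, ‖β x‖ ≤ b * γ x) :
    ∃ Δ : ι → ℂ, Δ - Y *ᵥ Δ = β ∧ ∀ x, ‖Δ x‖ ≤ b / (1 - q) * γ x := by
  have hi : Function.Injective (1 - Y).mulVec := by
    intro u v huv
    have e : (u - v) - Y *ᵥ (u - v) = 0 := by
      have : (1 - Y) *ᵥ (u - v) = 0 := by rw [Matrix.mulVec_sub]; exact sub_eq_zero.2 huv
      rwa [Matrix.sub_mulVec, Matrix.one_mulVec] at this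
    funext x
    have := apriori hγ h hq (b := 0) e (fun x => by simp) x
    simpa [sub_eq_zero] using this
  obtain ⟨Δ, hΔ⟩ := Matrix.mulVec_surjective_iff_isUnit.2
    (Matrix.mulVec_injective_iff_isUnit.1 hi) β
  rw [Matrix.sub_mulVec, Matrix.one_mulVec] at hΔ
  exact ⟨Δ, hΔ, apriori hγ h hq hΔ hβ⟩

/-- weights extended by `1` -/
def ext (O : Finset ι) (γ : ι → ℝ) : ι → ℝ := fun x => if x ∈ O then γ x else 1

omit [Fintype ι] in
lemma ext_pos {O : Finset ι} (hγ : ∀ x ∈ O, 0 < γ x) (x : ι) : 0 < ext O γ x := by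
  unfold ext; split_ifs with h
  exacts [hγ x h, one_pos]

lemma NB.of_supp {O : Finset ι} {Y : Matrix ι ι ℂ} {c : ℝ} (hc : 0 ≤ c)
    (hs : ∀ x y, Y x y ≠ 0 → x ∈ O ∧ y ∈ O)
    (h : ∀ x ∈ O, ∑ y ∈ O, ‖Y x y‖ * γ y ≤ c * γ x) : NB (ext O γ) Y c := fun x => by
  by_cases hx : x ∈ O
  · have e : ∑ y, ‖Y x y‖ * ext O γ y = ∑ y ∈ O, ‖Y x y‖ * γ y := by
      rw [← sum_subset (subset_univ O) fun y _ hy => by
        rw [not_not.1 fun hne => hy (hs x y hne).2]; simp]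
      exact sum_congr rfl fun y hy => by simp [ext, hy]
    rw [e]
    simpa [ext, hx] using h x hx
  · have e : ∑ y, ‖Y x y‖ * ext O γ y = 0 := sum_eq_zero fun y _ => by
      rw [not_not.1 fun hne => hx (hs x y hne).1]; simp
    rw [e]
    simpa [ext, hx] using hc

omit [Fintype ι] in
lemma cmp_supp (X : Matrix ι ι ℂ) (O : Finset ι) (x y : ι) (h : cmp X O x y ≠ 0) :
    x ∈ O ∧ y ∈ O := by
  by_contra hn
  exact h (if_neg hn)

/-- from the extended system to the system on `O` -/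
lemma finish {O : Finset ι} {X : Matrix ι ι ℂ} {β Δ : ι → ℂ} {c : ℝ}
    (he : Δ - cmp X O *ᵥ Δ = fun x => if x ∈ O then β x else 0)
    (hb : ∀ x, ‖Δ x‖ ≤ c * ext O γ x) :
    Supp Δ O ∧ ∀ x ∈ O, Δ x - ∑ y ∈ O, X x y * Δ y = β x ∧ ‖Δ x‖ ≤ c * γ x := by
  refine ⟨fun a ha => ?_, fun x hx => ⟨?_, by simpa [ext, hx] using hb x⟩⟩
  · have := congrFun he a
    simpa [ha, Matrix.mulVec, dotProduct, cmp] using this
  · have := congrFun he x
    simp only [Pi.sub_apply, if_pos hx] at this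
    rw [← this]
    congr 1
    rw [Matrix.mulVec, dotProduct, ← sum_subset (subset_univ O) fun y _ hy => by simp [cmp, hy]]
    exact sum_congr rfl fun y hy => by simp [cmp, hx, hy]

omit [Fintype ι] in
lemma rhs_le {O : Finset ι} {β : ι → ℂ} {b : ℝ} (hb : 0 ≤ b) (hβ : ∀ x ∈ O, ‖β x‖ ≤ b * γ x)
    (x : ι) : ‖(fun x => if x ∈ O then β x else 0) x‖ ≤ b * ext O γ x := by
  by_cases hx : x ∈ O
  · simpa [ext, hx] using hβ x hx
  · simpa [ext, hx] using hb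

section Tor

variable {d M : ℕ} [NeZero M]

/-- the overlap kernel -/
noncomputable def kk (L : ℕ) (x y : Tor d M) : ℝ :=
  ((univ.filter fun p => x ∈ tball p L ∧ y ∈ tball p L).card : ℝ) / vol d M L

lemma kk_nonneg (L : ℕ) (x y : Tor d M) : 0 ≤ kk L x y :=
  div_nonneg (Nat.cast_nonneg _) (by linarith [one_le_vol (d := d) (M := M) L])

lemma kk_le (L : ℕ) (x y : Tor d M) : kk L x y ≤ 1 := by
  rw [kk, div_le_one (by linarith [one_le_vol (d := d) (M := M) L]), ← card_filter_mem_tball x L]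
  exact_mod_cast card_le_card fun p hp => by
    simp only [mem_filter] at hp ⊢
    exact ⟨hp.1, hp.2.1⟩

lemma kk_ge (L : ℕ) (x y : Tor d M) : 1 - kk L x y ≤ d * (tdist x y : ℝ) / (L + 1) := by
  have h := overlap_ge x y L
  have : 1 - d * (tdist x y : ℝ) / (L + 1) ≤ kk L x y := by
    rw [kk, le_div_iff₀ (by linarith [one_le_vol (d := d) (M := M) L]), mul_comm]
    exact h
  linarith

lemma kk_range {L : ℕ} {x y : Tor d M} (h : kk L x y ≠ 0) : tdist x y ≤ 2 * L := by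
  have : (univ.filter fun p => x ∈ tball p L ∧ y ∈ tball p L).card ≠ 0 := fun h0 =>
    h (by rw [kk, h0]; simp)
  obtain ⟨p, hp⟩ := card_ne_zero.1 this
  simp only [mem_filter, mem_tball] at hp
  have := tdist_triangle x p y
  rw [tdist_comm p y] at this
  omega

/-- the truncated matrix -/
noncomputable def At (X : Matrix (Tor d M) (Tor d M) ℂ) (O : Finset (Tor d M)) (L : ℕ) :
    Matrix (Tor d M) (Tor d M) ℂ := fun x y => cmp X O x y * (kk L x y : ℝ)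

lemma At_eq (X : Matrix (Tor d M) (Tor d M) ℂ) (O : Finset (Tor d M)) (L : ℕ) :
    At X O L = (((vol d M L)⁻¹ : ℝ) : ℂ) • ∑ p, cmp X (O ∩ tball p L) := by
  ext x y
  have e : ∀ p, cmp X (O ∩ tball p L) x y =
      if x ∈ tball p L ∧ y ∈ tball p L then cmp X O x y else 0 := fun p => by
    simp only [cmp, mem_inter]
    by_cases h1 : x ∈ O <;> by_cases h2 : y ∈ O <;> simp [h1, h2]
  rw [Matrix.smul_apply, Matrix.sum_apply, sum_congr rfl fun p _ => e p, ← sum_filter, sum_const,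
    At, kk, nsmul_eq_mul, smul_eq_mul]
  push_cast
  ring

lemma norm_At {X : Matrix (Tor d M) (Tor d M) ℂ} {O : Finset (Tor d M)} {L : ℕ} {b2 : ℝ}
    (hb2 : 0 ≤ b2) (hblk : ∀ p, ‖cmp X (O ∩ tball p L)‖ ≤ b2) : ‖At X O L‖ ≤ b2 := by
  have hv : 0 < vol d M L := by linarith [one_le_vol (d := d) (M := M) L]
  have h := norm_sum_local_le univ (fun p => cmp X (O ∩ tball p L)) (fun p => O ∩ tball p L)
    (n := vol d M L) hb2 (fun p _ => ⟨?_, hblk p⟩) fun x => ?_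
  · rw [At_eq, norm_smul, norm_real, Real.norm_eq_abs, abs_of_pos (inv_pos.2 hv),
      inv_mul_le_iff₀ hv]
    exact h
  · ext a b
    simp only [cmp]
    split_ifs <;> rfl
  · rw [← card_filter_mem_tball x L]
    exact_mod_cast card_le_card fun p hp => by
      simp only [mem_filter, mem_inter] at hp ⊢
      exact ⟨hp.1, hp.2.2⟩

lemma At_supp {X : Matrix (Tor d M) (Tor d M) ℂ} {O : Finset (Tor d M)} {L : ℕ} {x y : Tor d M}
    (h : At X O L x y ≠ 0) : (x ∈ O ∧ y ∈ O) ∧ tdist x y ≤ 2 * L :=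
  ⟨cmp_supp X O x y (left_ne_zero_of_mul h),
    kk_range fun h0 => right_ne_zero_of_mul h (by rw [h0]; simp)⟩

lemma At_pow_range {X : Matrix (Tor d M) (Tor d M) ℂ} {O : Finset (Tor d M)} {L : ℕ} (k : ℕ) :
    ∀ x y : Tor d M, (At X O L ^ k) x y ≠ 0 → tdist x y ≤ 2 * k * L := by
  induction k with
  | zero =>
    intro x y h
    have : x = y := by
      by_contra hne
      exact h (by simp [Matrix.one_apply_ne hne])
    simp [this, tdist_self]
  | succ k ih =>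
    intro x y h
    rw [pow_succ, Matrix.mul_apply] at h
    obtain ⟨z, -, hz⟩ := exists_ne_zero_of_sum_ne_zero h
    have h1 := ih x z (left_ne_zero_of_mul hz)
    have h2 := (At_supp (right_ne_zero_of_mul hz)).2
    have h3 := tdist_triangle x z y
    nlinarith

lemma At_pow_supp {X : Matrix (Tor d M) (Tor d M) ℂ} {O : Finset (Tor d M)} {L : ℕ} (k : ℕ)
    (x y : Tor d M) (h : (At X O L ^ (k + 1)) x y ≠ 0) : x ∈ O ∧ y ∈ O := by
  constructor
  · rw [pow_succ', Matrix.mul_apply] at h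
    obtain ⟨z, -, hz⟩ := exists_ne_zero_of_sum_ne_zero h
    exact (At_supp (left_ne_zero_of_mul hz)).1.1
  · rw [pow_succ, Matrix.mul_apply] at h
    obtain ⟨z, -, hz⟩ := exists_ne_zero_of_sum_ne_zero h
    exact (At_supp (right_ne_zero_of_mul hz)).1.2

lemma row_le {Y : Matrix (Tor d M) (Tor d M) ℂ} {R : ℕ} {a : ℝ}
    (hR : ∀ x y, Y x y ≠ 0 → tdist x y ≤ R) (ha : ‖Y‖ ≤ a) (h : 64 * vol d M R * a ^ 2 ≤ 1)
    (x : Tor d M) : ∑ y, ‖Y x y‖ ≤ 1 / 8 := by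
  have e : ∑ y, ‖Y x y‖ = ∑ y ∈ tball x R, ‖Y x y‖ :=
    (sum_subset (subset_univ _) fun y _ hy => by
      have h0 : Y x y = 0 := by
        by_contra hne
        exact hy (mem_tball.2 (by rw [tdist_comm]; exact hR x y hne))
      simp [h0]).symm
  have h1 := sq_sum_le_card_mul_sum_sq (s := tball x R) (f := fun y => ‖Y x y‖)
  have h2 : ∑ y ∈ tball x R, ‖Y x y‖ ^ 2 ≤ a ^ 2 :=
    ((sum_le_sum_of_subset_of_nonneg (subset_univ _) fun _ _ _ => by positivity).trans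
      (row_sq_le Y x)).trans (pow_le_pow_left₀ (norm_nonneg _) ha 2)
  rw [card_tball] at h1
  have h3 := mul_le_mul_of_nonneg_left h2 (by linarith [one_le_vol (d := d) (M := M) R] :
    0 ≤ vol d M R)
  rw [e]
  exact (abs_le_of_sq_le_sq' (b := 1 / 8) (by nlinarith) (by norm_num)).2

end Tor

end Nw


open Nw in
theorem solve_early {d M : ℕ} [NeZero M] {O : Finset (Tor d M)} {X : Matrix (Tor d M) (Tor d M) ℂ}
    {γ : Tor d M → ℝ} {g e e' b2 b : ℝ} {L n : ℕ} {β : Tor d M → ℂ} (hg : 0 < g)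
    (hγ : ∀ x ∈ O, g ≤ γ x ∧ γ x ≤ 2 * g) (he : 0 ≤ e) (he' : 0 ≤ e') (hb : 0 ≤ b) (hb2 : 0 ≤ b2)
    (hn : 1 ≤ n) (hX : ∀ x ∈ O, ∑ y ∈ O, ‖X x y‖ * γ y ≤ (1 + e) * γ x)
    (hblk : ∀ p, ‖cmp X (O ∩ tball p L)‖ ≤ b2)
    (hdec : ∀ x ∈ O, ∑ y ∈ O, ‖X x y‖ * tdist x y ≤ e' * L)
    (h1 : n * e ≤ 1 / 2) (h2 : 16 * n * d * e' ≤ 1) (h3 : 64 * vol d M (2 * n * L) * b2 ^ (2 * n) ≤ 1)
    (hβ : ∀ x ∈ O, ‖β x‖ ≤ b * γ x) :
    ∃ Δ : Tor d M → ℂ, Supp Δ O ∧ ∀ x ∈ O, Δ x - ∑ y ∈ O, X x y * Δ y = β x ∧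
      ‖Δ x‖ ≤ 4 * n * b * γ x := by
  have hγ0 : ∀ x ∈ O, 0 < γ x := fun x hx => hg.trans_le (hγ x hx).1
  have hp := ext_pos hγ0
  have ha : (1 : ℝ) ≤ 1 + e := by linarith
  have hcm : ∀ x ∈ O, ∀ y ∈ O, cmp X O x y = X x y := fun x hx y hy => by simp [cmp, hx, hy]
  have hAt : ∀ x ∈ O, ∀ y ∈ O, ‖At X O L x y‖ = ‖X x y‖ * kk L x y := fun x hx y hy => by
    rw [At, hcm x hx y hy, norm_mul, norm_real, Real.norm_eq_abs, abs_of_nonneg (kk_nonneg L x y)]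
  have hA : NB (ext O γ) (cmp X O) (1 + e) := NB.of_supp (by linarith) (cmp_supp X O) fun x hx =>
    le_of_eq_of_le (sum_congr rfl fun y hy => by rw [hcm x hx y hy]) (hX x hx)
  have hB : NB (ext O γ) (At X O L) (1 + e) :=
    NB.of_supp (by linarith) (fun x y h => (At_supp h).1) fun x hx =>
      (sum_le_sum fun y hy => by
        rw [hAt x hx y hy]
        exact mul_le_mul_of_nonneg_right
          (mul_le_of_le_one_right (norm_nonneg _) (kk_le L x y)) (hγ0 y hy).le).trans (hX x hx)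
  have hD : NB (ext O γ) (cmp X O - At X O L) (2 * d * e') := by
    refine NB.of_supp (by positivity) (fun x y h => cmp_supp X O x y fun h0 => h ?_)
      fun x hx => ?_
    · simp [At, h0]
    have hL : (0 : ℝ) < L + 1 := by positivity
    calc ∑ y ∈ O, ‖(cmp X O - At X O L) x y‖ * γ y
        ≤ ∑ y ∈ O, d / (L + 1) * (2 * g) * (‖X x y‖ * tdist x y) := sum_le_sum fun y hy => by
          have e1 : (cmp X O - At X O L) x y = X x y * ((1 - kk L x y : ℝ) : ℂ) := by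
            rw [Matrix.sub_apply, At, hcm x hx y hy]; push_cast; ring
          rw [e1, norm_mul, norm_real, Real.norm_eq_abs,
            abs_of_nonneg (sub_nonneg.2 (kk_le L x y))]
          calc ‖X x y‖ * (1 - kk L x y) * γ y
              ≤ ‖X x y‖ * (d * (tdist x y : ℝ) / (L + 1)) * (2 * g) :=
                mul_le_mul (mul_le_mul_of_nonneg_left (kk_ge L x y) (norm_nonneg _))
                  (hγ y hy).2 (hγ0 y hy).le (by positivity)
            _ = _ := by ring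
      _ ≤ d / (L + 1) * (2 * g) * (e' * (L + 1)) := by
          rw [← mul_sum]
          exact mul_le_mul_of_nonneg_left ((hdec x hx).trans (by nlinarith)) (by positivity)
      _ = 2 * d * e' * g := by field_simp
      _ ≤ 2 * d * e' * γ x := mul_le_mul_of_nonneg_left (hγ x hx).1 (by positivity)
  have hpow : (1 + e) ^ n ≤ 2 := by
    have t1 : (1 + e) ^ n ≤ Real.exp e ^ n :=
      pow_le_pow_left₀ (by linarith) (by linarith [Real.add_one_le_exp e]) n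
    rw [← Real.exp_nat_mul] at t1
    have t2 : Real.exp (n * e) ≤ Real.exp (1 / 2) := Real.exp_le_exp.2 h1
    have t3 := Real.add_one_le_exp (-(1 / 2))
    have t4 : Real.exp (1 / 2) * Real.exp (-(1 / 2)) = 1 := by rw [← Real.exp_add]; simp
    nlinarith [Real.exp_pos (1 / 2)]
  have hE : NB (ext O γ) (cmp X O ^ n - At X O L ^ n) (1 / 4) := by
    refine (hA.pow_sub hp hB hD ha (by positivity) n).mono hp ?_
    have := mul_le_mul_of_nonneg_left hpow (by positivity : (0 : ℝ) ≤ n * (2 * d * e'))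
    nlinarith
  have hF : NB (ext O γ) (At X O L ^ n) (1 / 4) := by
    obtain ⟨k, rfl⟩ : ∃ k, n = k + 1 := ⟨n - 1, by omega⟩
    refine NB.of_supp (by norm_num) (At_pow_supp k) fun x hx => ?_
    have r := row_le (a := b2 ^ (k + 1)) (At_pow_range (X := X) (O := O) (L := L) (k + 1))
      ((norm_pow_le' _ (Nat.succ_pos k)).trans
        (pow_le_pow_left₀ (norm_nonneg _) (norm_At hb2 hblk) _))
      (by rw [← pow_mul, mul_comm (k + 1) 2]; exact h3) x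
    calc ∑ y ∈ O, ‖(At X O L ^ (k + 1)) x y‖ * γ y
        ≤ ∑ y ∈ O, 2 * g * ‖(At X O L ^ (k + 1)) x y‖ := sum_le_sum fun y hy => by
          rw [mul_comm]; exact mul_le_mul_of_nonneg_right (hγ y hy).2 (norm_nonneg _)
      _ ≤ 2 * g * (1 / 8) := by
          rw [← mul_sum]
          exact mul_le_mul_of_nonneg_left ((sum_le_sum_of_subset_of_nonneg (subset_univ _)
            fun _ _ _ => norm_nonneg _).trans r) (by positivity)
      _ ≤ 1 / 4 * γ x := by linarith [(hγ x hx).1]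
  have hG : NB (ext O γ) (cmp X O ^ n) (1 / 4 + 1 / 4) := by
    have := hE.add hp hF
    rwa [sub_add_cancel] at this
  obtain ⟨Δ, e1, e2⟩ := solve hp hG (by norm_num) (rhs_le hb hβ)
  have hS : NB (ext O γ) (∑ i ∈ range n, cmp X O ^ i) (n * 2) := NB.geom hp n fun i hi =>
    (hA.pow hp (by linarith) i).mono hp ((pow_le_pow_right₀ ha hi.le).trans hpow)
  refine ⟨(∑ i ∈ range n, cmp X O ^ i) *ᵥ Δ, finish ?_ fun x => ?_⟩
  · rw [← e1]
    have := congrArg (· *ᵥ Δ) (mul_neg_geom_sum (cmp X O) n)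
    simp only [← Matrix.mulVec_mulVec, Matrix.sub_mulVec, Matrix.one_mulVec] at this
    exact this
  · refine (hS.vec (by positivity) e2 x).trans (le_of_eq ?_)
    ring

end Crest.Agent.N334.AC
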